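import Mathlib
import Vale.Agent.P045.Defs

set_option linter.all false

section

set_option linter.all false

section
/-!
# P045: affine plane `AG(2,F)` in coordinates

Points are functions `Fin 2 → F`.  A line is a pair `(d, c)` of a direction `d : Option F`
(`none` = vertical, `some m` = slope `m`) and an intercept `c : F`.
-/

namespace P045.LS

open MvPolynomial

/-- points of the affine plane -/
abbrev Pt (F : Type) : Type := Fin 2 → F

/-- lines of the affine plane: direction and intercept -/
abbrev Line (F : Type) : Type := Option F × F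

/-- the intercept of the line of direction `d` through `p` -/
def icpt {F : Type} [Field F] : Option F → Pt F → F
  | none, p => p 0
  | some m, p => p 1 - m * p 0

/-- the point `p` is on the line `x` -/
def On {F : Type} [Field F] (p : Pt F) (x : Line F) : Prop := icpt x.1 p = x.2

instance {F : Type} [Field F] [DecidableEq F] (p : Pt F) (x : Line F) : Decidable (On p x) := by
  unfold On; infer_instance

/-- the linear polynomial of a line -/
noncomputable def ell {F : Type} [Field F] : Line F → MvPolynomial (Fin 2) F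
  | (none, c) => X 0 - C c
  | (some m, c) => X 1 - C m * X 0 - C c

/-- Cayley-Bacharach property in degree `m` of a finite set of points. -/
def CB {F : Type} [Field F] (U : Finset (Pt F)) (m : ℕ) : Prop :=
  ∀ f : MvPolynomial (Fin 2) F, f.totalDegree ≤ m → ∀ w ∈ U,
    (∀ p ∈ U, p ≠ w → eval p f = 0) → eval w f = 0

/-- Dual form of an intersecting `r`-partite hypergraph with covering number at least `r`:
`r` partitions (given by functions `f i : W → Z`) of a nonempty finite set `W` such that any two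
elements of `W` are together in some block and `W` is not covered by fewer than `r` blocks. -/
def DualCE (r : ℕ) : Prop :=
  ∃ (P W Z : Type) (_ : Fintype P) (_ : Fintype W) (_ : Fintype Z)
    (_ : DecidableEq P) (_ : DecidableEq W) (_ : DecidableEq Z) (f : P → W → Z),
    Nonempty W ∧ Fintype.card P = r ∧
    (∀ w w' : W, ∃ i, f i w = f i w') ∧
    ∀ C : Finset (P × Z), (∀ w, ∃ i, (i, f i w) ∈ C) → r ≤ C.card

end P045.LS
end

section
/-!
# Definitions: the linear classes of split lines
-/

namespace P045.LS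

variable {k F : Type} [Field k] [Fintype k] [DecidableEq k] [Field F] [Fintype F] [DecidableEq F]
  [Algebra k F]

/-- the line `z x + l z^q y + a = 0`, for `z ≠ 0`, `l ≠ 0` (`q = card k`) -/
def lin (l : k) (z : F) (a : k) : Line F :=
  (some (-(z / (algebraMap k F l * z ^ Fintype.card k))),
    -(algebraMap k F a / (algebraMap k F l * z ^ Fintype.card k)))

/-- the class of split lines attached to `l` -/
def cls (F : Type) [Field F] [Fintype F] [DecidableEq F] [Algebra k F] (l : k) :
    Finset (Line F) :=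
  (Finset.univ.filter fun u : F × k => u.1 ≠ 0).image fun u => lin l u.1 u.2

/-- the points which are on exactly one line of each class -/
def Om (k F : Type) [Field k] [Fintype k] [DecidableEq k] [Field F] [Fintype F] [DecidableEq F]
    [Algebra k F] : Finset (Pt F) :=
  Finset.univ.filter fun p => ∀ l : k, l ≠ 0 → ∀ x ∈ cls F l, ∀ y ∈ cls F l,
    On p x → On p y → x = y

/-- weights -/
def wt (k : Type) {F : Type} [Field k] [Fintype k] [DecidableEq k] [Field F] [Fintype F]
    [DecidableEq F] [Algebra k F] (x : Line F) : ℕ :=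
  (Finset.univ.filter fun u : k × F × k => u.1 ≠ 0 ∧ u.2.1 ≠ 0 ∧ lin u.1 u.2.1 u.2.2 = x).card

end P045.LS
end

section
/-! # P045 LS: Bezout-type bound by linear algebra (port of P018). -/

namespace P045.LS
open MvPolynomial

variable {F : Type} [Field F]


theorem two_mul_sum_succ (n : ℕ) : (∑ i ∈ Finset.range (n + 1), (i + 1)) * 2 =
    (n + 1) * (n + 2) := by
  induction n with
  | zero => simp
  | succ n ih =>
    rw [Finset.sum_range_succ, add_mul, ih]
    ring

/-- the index set of monomials of degree at most `n` in two variables. -/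
noncomputable def triEquiv (n : ℕ) : {m : Fin 2 →₀ ℕ | (m.sum fun _ e => e) ≤ n} ≃
      ↥((Finset.range (n + 1)).sigma (fun i => Finset.range (n + 1 - i))) where
  toFun := fun m => ⟨⟨m.1 0, m.1 1⟩, by
        have := m.2
        simp only [Set.mem_ofPred_eq] at this
        rw [Finsupp.sum_fintype _ _ (fun _ => rfl), Fin.sum_univ_two] at this
        simp only [Finset.mem_sigma, Finset.mem_range]
        omega⟩
  invFun := fun p => ⟨Finsupp.equivFunOnFinite.symm ![p.1.1, p.1.2], by
        have := p.2
        simp only [Finset.mem_sigma, Finset.mem_range] at this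
        simp only [Set.mem_ofPred_eq]
        rw [Finsupp.sum_fintype _ _ (fun _ => rfl), Fin.sum_univ_two]
        simp
        omega⟩
  left_inv := fun m => by
        apply Subtype.ext
        ext i
        fin_cases i <;> simp
  right_inv := fun p => by
        apply Subtype.ext
        simp

theorem card_tri (n : ℕ) : Nat.card {m : Fin 2 →₀ ℕ | (m.sum fun _ e => e) ≤ n} * 2 =
    (n + 1) * (n + 2) := by
  rw [Nat.card_congr (triEquiv n), Nat.card_eq_fintype_card, Fintype.card_coe, Finset.card_sigma]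
  simp only [Finset.card_range]
  have h : ∑ i ∈ Finset.range (n + 1), (n + 1 - i) = ∑ i ∈ Finset.range (n + 1), (i + 1) := by
    rw [← Finset.sum_range_reflect]
    apply Finset.sum_congr rfl
    intro i hi
    rw [Finset.mem_range] at hi
    omega
  rw [h, two_mul_sum_succ]

/-- polynomials of degree at most `n`. -/
noncomputable abbrev VV (F : Type) [Field F] (n : ℕ) : Submodule F (MvPolynomial (Fin 2) F) :=
  restrictTotalDegree (Fin 2) F n

theorem finrank_VV (n : ℕ) : Module.finrank F (VV F n) * 2 = (n + 1) * (n + 2) := by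
  rw [← card_tri]
  congr 1
  exact Module.finrank_eq_nat_card_basis (basisRestrictSupport F _)

/-- evaluation at the points of `Z` as a linear map. -/
noncomputable def evL (Z : Finset (Pt F)) : MvPolynomial (Fin 2) F →ₗ[F] (Z → F) where
  toFun := fun P z => eval z.1 P
  map_add' := fun P Q => by
    funext z
    simp
  map_smul' := fun c P => by
    funext z
    simp [smul_eval]

@[simp] theorem evL_apply (Z : Finset (Pt F)) (P : MvPolynomial (Fin 2) F) (z : Z) :
    evL Z P z = eval z.1 P := rfl

open Classical in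
/-- a linear form vanishing at `w` but not at `z`. -/
noncomputable def sepForm (z w : Pt F) : MvPolynomial (Fin 2) F :=
  if z 0 = w 0 then X 1 - C (w 1) else X 0 - C (w 0)

theorem totalDegree_X_sub_C_le (i : Fin 2) (a : F) :
    (X i - C a : MvPolynomial (Fin 2) F).totalDegree ≤ 1 := by
  refine (totalDegree_sub _ _).trans ?_
  simp

theorem sepForm_degree (z w : Pt F) : (sepForm z w).totalDegree ≤ 1 := by
  unfold sepForm
  split_ifs
  · exact totalDegree_X_sub_C_le _ _
  · exact totalDegree_X_sub_C_le _ _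

theorem sepForm_self (z w : Pt F) : eval w (sepForm z w) = 0 := by
  unfold sepForm
  split_ifs <;> simp

theorem sepForm_ne {z w : Pt F} (h : z ≠ w) : eval z (sepForm z w) ≠ 0 := by
  unfold sepForm
  split_ifs with h1
  · have h2 : z 1 ≠ w 1 := fun h2 => h (by
      funext i
      fin_cases i
      · exact h1
      · exact h2)
    simp only [map_sub, eval_X, eval_C]
    rw [sub_ne_zero]
    exact h2
  · simp only [map_sub, eval_X, eval_C]
    rw [sub_ne_zero]
    exact h1

theorem evL_surj (Z : Finset (Pt F)) (n : ℕ) (hn : Z.card ≤ n) :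
    (VV F n).map (evL Z) = ⊤ := by
  classical
  rw [eq_top_iff, ← (Pi.basisFun F Z).span_eq, Submodule.span_le]
  rintro _ ⟨z, rfl⟩
  set P : MvPolynomial (Fin 2) F := ∏ w ∈ Z.erase z.1, sepForm z.1 w with hP
  have hPdeg : P ∈ VV F n := by
    rw [mem_restrictTotalDegree]
    refine (totalDegree_finsetProd _ _).trans ?_
    refine (Finset.sum_le_sum (fun w _ => sepForm_degree z.1 w)).trans ?_
    simp only [Finset.sum_const, smul_eq_mul, mul_one]
    exact (Finset.card_erase_le).trans hn
  have hz : eval z.1 P ≠ 0 := by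
    rw [hP, map_prod, Finset.prod_ne_zero_iff]
    intro w hw
    exact sepForm_ne (Finset.ne_of_mem_erase hw).symm
  have hw : ∀ w : Z, w ≠ z → eval w.1 P = 0 := by
    intro w hw
    rw [hP, map_prod]
    refine Finset.prod_eq_zero (i := w.1) ?_ (sepForm_self _ _)
    exact Finset.mem_erase.2 ⟨fun h => hw (Subtype.ext h), w.2⟩
  refine ⟨(eval z.1 P)⁻¹ • P, (VV F n).smul_mem _ hPdeg, ?_⟩
  rw [map_smul]
  funext w
  simp only [Pi.smul_apply, evL_apply, smul_eq_mul, Pi.basisFun_apply]
  by_cases h : w = z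
  · subst h
    rw [inv_mul_cancel₀ hz]
    simp
  · rw [hw w h, mul_zero, Pi.single_eq_of_ne h]

/-- multiplication by `q` as a linear map. -/
noncomputable abbrev mulq (q : MvPolynomial (Fin 2) F) :
    MvPolynomial (Fin 2) F →ₗ[F] MvPolynomial (Fin 2) F := LinearMap.mulLeft F q

theorem finrank_map_mulq {q : MvPolynomial (Fin 2) F} (hq : q ≠ 0) (n : ℕ) :
    Module.finrank F ((VV F n).map (mulq q)) = Module.finrank F (VV F n) := by
  have hinj : Function.Injective (mulq q) := by
    intro u v huv
    exact mul_left_cancel₀ hq huv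
  exact (LinearEquiv.finrank_eq (Submodule.equivMapOfInjective (mulq q) hinj (VV F n))).symm

theorem map_mulq_le {q : MvPolynomial (Fin 2) F} {n m : ℕ} (h : q.totalDegree + m ≤ n) :
    (VV F m).map (mulq q) ≤ VV F n := by
  rintro _ ⟨u, hu, rfl⟩
  have hu' := (mem_restrictTotalDegree _ _ _).1 hu
  rw [mem_restrictTotalDegree]
  have := totalDegree_mul q u
  show (q * u).totalDegree ≤ n
  omega

/-- Module C: Bezout-type bound. -/
theorem bezout_bound {q G : MvPolynomial (Fin 2) F} (hq : Irreducible q) (hG : ¬ q ∣ G)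
    (Z : Finset (Pt F)) (h1 : ∀ z ∈ Z, eval z q = 0) (h2 : ∀ z ∈ Z, eval z G = 0) :
    Z.card ≤ q.totalDegree * G.totalDegree := by
  have hq0 : q ≠ 0 := hq.ne_zero
  have hG0 : G ≠ 0 := fun h => hG (h ▸ dvd_zero q)
  have hqp : Prime q := hq.prime
  set a := q.totalDegree with ha
  set b := G.totalDegree with hb
  set c := Z.card with hc
  set n := a + b + c with hn
  set L := (evL Z).domRestrict (VV F n) with hL
  have hrange : LinearMap.range L = ⊤ := by
    rw [hL, LinearMap.range_domRestrict, evL_surj Z n (by omega)]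
  have hrn := LinearMap.finrank_range_add_finrank_ker L
  rw [hrange, finrank_top, Module.finrank_fintype_fun_eq_card, Fintype.card_coe] at hrn
  set Qn := (VV F (b + c)).map (mulq q) with hQn
  set Gn := (VV F (a + c)).map (mulq G) with hGn
  have hle : Qn ⊔ Gn ≤ (LinearMap.ker L).map (VV F n).subtype := by
    rw [sup_le_iff]
    constructor
    · intro u hu
      have huV : u ∈ VV F n := map_mulq_le (by omega) hu
      refine ⟨⟨u, huV⟩, ?_, rfl⟩
      obtain ⟨v, _, rfl⟩ := hu
      rw [SetLike.mem_coe, LinearMap.mem_ker]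
      funext z
      show eval z.1 (q * v) = 0
      rw [map_mul, h1 z.1 z.2, zero_mul]
    · intro u hu
      have huV : u ∈ VV F n := map_mulq_le (by omega) hu
      refine ⟨⟨u, huV⟩, ?_, rfl⟩
      obtain ⟨v, _, rfl⟩ := hu
      rw [SetLike.mem_coe, LinearMap.mem_ker]
      funext z
      show eval z.1 (G * v) = 0
      rw [map_mul, h2 z.1 z.2, zero_mul]
  have hfr : Module.finrank F ((LinearMap.ker L).map (VV F n).subtype) =
      Module.finrank F (LinearMap.ker L) := Submodule.finrank_map_subtype_eq _ _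
  have hle' := Submodule.finrank_mono hle
  rw [hfr] at hle'
  have hinf : Qn ⊓ Gn ≤ (VV F c).map (mulq (q * G)) := by
    rintro u ⟨⟨v, hv, rfl⟩, ⟨w, hw, hvw⟩⟩
    have hvw' : G * w = q * v := hvw
    have hdvd : q ∣ G * w := ⟨v, hvw'⟩
    rcases hqp.dvd_or_dvd hdvd with h | h
    · exact absurd h hG
    · obtain ⟨t, rfl⟩ := h
      have hv' : v = G * t := by
        apply mul_left_cancel₀ hq0
        rw [← hvw']
        ring
      refine ⟨t, ?_, ?_⟩
      · rw [SetLike.mem_coe, mem_restrictTotalDegree]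
        rw [SetLike.mem_coe, mem_restrictTotalDegree] at hw
        rcases eq_or_ne t 0 with rfl | ht
        · simp
        · rw [totalDegree_mul_of_isDomain hq0 ht] at hw
          omega
      · show q * G * t = q * v
        rw [hv']
        ring
  have hinf' := Submodule.finrank_mono hinf
  rw [finrank_map_mulq (mul_ne_zero hq0 hG0)] at hinf'
  have hsum := Submodule.finrank_sup_add_finrank_inf_eq Qn Gn
  rw [hQn, hGn, finrank_map_mulq hq0, finrank_map_mulq hG0, ← hQn, ← hGn] at hsum
  have d1 := finrank_VV (F := F) n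
  have d2 := finrank_VV (F := F) (b + c)
  have d3 := finrank_VV (F := F) (a + c)
  have d4 := finrank_VV (F := F) c
  nlinarith [d1, d2, d3, d4]

end P045.LS
end

section
/-! # P045 LS: Cayley-Bacharach property (Chevalley-Warning), Lemmas A and B (helper849) -/

namespace P045.LS
open MvPolynomial

variable {F : Type} [Field F]

theorem eval_ell (p : Pt F) (x : Line F) : eval p (ell x) = icpt x.1 p - x.2 := by
  rcases x with ⟨_ | m, c⟩ <;> simp [ell, icpt]

theorem eval_ell_eq_zero {p : Pt F} {x : Line F} : eval p (ell x) = 0 ↔ On p x := by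
  rw [eval_ell, sub_eq_zero, On]

theorem ell_deg_le (x : Line F) : (ell x).totalDegree ≤ 1 := by
  rcases x with ⟨_ | m, c⟩
  · exact totalDegree_X_sub_C_le _ _
  · simp only [ell]
    refine (totalDegree_sub _ _).trans ?_
    refine max_le ?_ (by simp)
    refine (totalDegree_sub _ _).trans ?_
    refine max_le (by simp) ?_
    refine (totalDegree_mul _ _).trans ?_
    simp

theorem totalDegree_prod_ell_le (S : Finset (Line F)) : (∏ x ∈ S, ell x).totalDegree ≤ S.card := by
  refine (totalDegree_finsetProd _ _).trans ?_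
  refine (Finset.sum_le_sum (fun w _ => ell_deg_le w)).trans ?_
  simp

/-- Cayley-Bacharach property of the complement of a small set of lines. -/
theorem cb_of_cover [Fintype F] {n T : ℕ} (hn : Fintype.card F = n)
    (LL : Finset (Line F)) (hLL : LL.card + 1 ≤ n + T) (U : Finset (Pt F))
    (hU : ∀ p, p ∈ U ↔ ∀ x ∈ LL, ¬ On p x) (m : ℕ) (hm : m + T + 2 ≤ n) : CB U m := by
  classical
  intro f hf w hw hz
  have hdeg : ((∏ x ∈ LL, ell x) * f).totalDegree <
      (Fintype.card F - 1) * Fintype.card (Fin 2) := by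
    refine (totalDegree_mul _ _).trans_lt ?_
    have := totalDegree_prod_ell_le LL
    rw [hn, Fintype.card_fin]
    omega
  have hsum := MvPolynomial.sum_eval_eq_zero _ hdeg
  rw [Finset.sum_eq_single w] at hsum
  · rw [map_mul] at hsum
    rcases mul_eq_zero.1 hsum with h | h
    · exfalso
      rw [map_prod, Finset.prod_eq_zero_iff] at h
      obtain ⟨x, hx, hx0⟩ := h
      exact (hU w).1 hw x hx (eval_ell_eq_zero.1 hx0)
    · exact h
  · intro p _ hpw
    rw [map_mul]
    by_cases hp : p ∈ U
    · rw [hz p hp hpw, mul_zero]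
    · rw [hU] at hp
      push Not at hp
      obtain ⟨x, hx, hx0⟩ := hp
      rw [map_prod, Finset.prod_eq_zero hx (eval_ell_eq_zero.2 hx0), zero_mul]
  · intro h
    exact absurd (Finset.mem_univ _) h

open Classical in
/-- Lemma A. -/
theorem lemmaA {U : Finset (Pt F)} {m E : ℕ} (hCB : CB U m)
    (hE : ∀ x : Line F, (U.filter (fun p => On p x)).card ≤ E) (P : Line F)
    {G : MvPolynomial (Fin 2) F} (hdeg : G.totalDegree + E ≤ m + 1)
    (hG : ∀ p ∈ U, ¬ On p P → eval p G = 0) : ∀ p ∈ U, eval p G = 0 := by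
  intro w hw
  by_cases hwP : On w P
  swap
  · exact hG w hw hwP
  set V := (U.filter (fun p => On p P)).erase w with hV
  have hVcard : V.card + 1 ≤ E := by
    have hwm : w ∈ U.filter (fun p => On p P) := Finset.mem_filter.2 ⟨hw, hwP⟩
    rw [hV, Finset.card_erase_add_one hwm]
    exact hE P
  have hdV : (∏ v ∈ V, sepForm w v).totalDegree ≤ V.card := by
    refine (totalDegree_finsetProd _ _).trans ?_
    refine (Finset.sum_le_sum (fun v _ => sepForm_degree w v)).trans ?_
    simp
  have h1 : eval w (G * ∏ v ∈ V, sepForm w v) = 0 := by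
    apply hCB _ _ w hw
    · intro p hp hpw
      rw [map_mul]
      by_cases hpP : On p P
      · have hpV : p ∈ V := Finset.mem_erase.2 ⟨hpw, Finset.mem_filter.2 ⟨hp, hpP⟩⟩
        rw [map_prod, Finset.prod_eq_zero hpV (sepForm_self _ _), mul_zero]
      · rw [hG p hp hpP, zero_mul]
    · refine (totalDegree_mul _ _).trans ?_
      omega
  rw [map_mul] at h1
  rcases mul_eq_zero.1 h1 with h | h
  · exact h
  · exfalso
    rw [map_prod, Finset.prod_eq_zero_iff] at h
    obtain ⟨v, hv, hv0⟩ := h
    exact sepForm_ne (Finset.ne_of_mem_erase hv).symm hv0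

open Classical in
/-- Lemma B. -/
theorem lemmaB {U : Finset (Pt F)} {m E : ℕ} (hCB : CB U m)
    (hE : ∀ x : Line F, (U.filter (fun p => On p x)).card ≤ E) (S : Finset (Line F))
    {G : MvPolynomial (Fin 2) F} (hdeg : G.totalDegree + S.card + E ≤ m + 2)
    (hG : ∀ p ∈ U, (∀ x ∈ S, ¬ On p x) → eval p G = 0) : ∀ p ∈ U, eval p G = 0 := by
  induction S using Finset.induction_on with
  | empty =>
    intro p hp
    exact hG p hp (by simp)
  | insert x S hx ih =>
    rw [Finset.card_insert_of_notMem hx] at hdeg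
    apply ih (by omega)
    have hA : ∀ p ∈ U, eval p (G * ∏ y ∈ S, ell y) = 0 := by
      apply lemmaA hCB hE x
      · have h1 := totalDegree_mul G (∏ y ∈ S, ell y)
        have h2 := totalDegree_prod_ell_le S
        omega
      · intro p hp hpx
        rw [map_mul]
        by_cases h : ∃ y ∈ S, On p y
        · obtain ⟨y, hy, hy0⟩ := h
          rw [map_prod, Finset.prod_eq_zero hy (eval_ell_eq_zero.2 hy0), mul_zero]
        · push Not at h
          rw [hG p hp, zero_mul]
          intro y hy
          rcases Finset.mem_insert.1 hy with rfl | hy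
          · exact hpx
          · exact h y hy
    intro p hp hpS
    have := hA p hp
    rw [map_mul] at this
    rcases mul_eq_zero.1 this with h | h
    · exact h
    · exfalso
      rw [map_prod, Finset.prod_eq_zero_iff] at h
      obtain ⟨y, hy, hy0⟩ := h
      exact hpS y hy (eval_ell_eq_zero.1 hy0)

end P045.LS
end

section
/-! # P045 LS: dimension counts (helper849) -/

namespace P045.LS
open MvPolynomial

variable {F : Type} [Field F]

/-- a nonzero polynomial of degree at most `K` vanishing on a small set. -/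
theorem rg_exists_vanish {K : ℕ} (Z : Finset (Pt F)) (h : 2 * Z.card < (K + 1) * (K + 2)) :
    ∃ f : MvPolynomial (Fin 2) F, f ≠ 0 ∧ f.totalDegree ≤ K ∧ ∀ p ∈ Z, eval p f = 0 := by
  have h1 := finrank_VV (F := F) K
  have hlt : Module.finrank F (Z → F) < Module.finrank F (VV F K) := by
    rw [Module.finrank_fintype_fun_eq_card, Fintype.card_coe]
    omega
  have hker := LinearMap.ker_ne_bot_of_finrank_lt (f := (evL Z).domRestrict (VV F K)) hlt
  obtain ⟨⟨f, hf⟩, hfk, hf0⟩ := Submodule.exists_mem_ne_zero_of_ne_bot hker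
  refine ⟨f, fun h => hf0 (Subtype.ext h), (mem_restrictTotalDegree _ _ _).1 hf, ?_⟩
  intro p hp
  have h2 := LinearMap.mem_ker.1 hfk
  exact congrFun h2 ⟨p, hp⟩

/-- a polynomial of degree at most `j - 1`, not divisible by `C`, vanishing on a small set. -/
theorem rg_exists_vanish_not_dvd {C : MvPolynomial (Fin 2) F} (hC : C ≠ 0) {j : ℕ}
    (hj : 1 ≤ j) (hcj : C.totalDegree ≤ j) (Z : Finset (Pt F))
    (h : 2 * Z.card + (j - C.totalDegree) * (j - C.totalDegree + 1) < j * (j + 1)) :
    ∃ f : MvPolynomial (Fin 2) F, ¬ C ∣ f ∧ f.totalDegree + 1 ≤ j ∧ ∀ p ∈ Z, eval p f = 0 := by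
  set c := C.totalDegree with hc
  have h1 := finrank_VV (F := F) (j - 1)
  have h1' : (j - 1 + 1) * (j - 1 + 2) = j * (j + 1) := by
    have : j - 1 + 1 = j := by omega
    rw [this]
    have : j - 1 + 2 = j + 1 := by omega
    rw [this]
  rw [h1'] at h1
  by_contra hno
  push Not at hno
  set L := (evL Z).domRestrict (VV F (j - 1)) with hL
  have hrn := LinearMap.finrank_range_add_finrank_ker L
  have hr : Module.finrank F (LinearMap.range L) ≤ Z.card := by
    refine (Submodule.finrank_le _).trans ?_
    rw [Module.finrank_fintype_fun_eq_card, Fintype.card_coe]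
  have hfr : Module.finrank F ((LinearMap.ker L).map (VV F (j - 1)).subtype) =
      Module.finrank F (LinearMap.ker L) := Submodule.finrank_map_subtype_eq _ _
  -- elements of the kernel are divisible by C
  have hdiv : ∀ u ∈ (LinearMap.ker L).map (VV F (j - 1)).subtype,
      u ∈ VV F (j - 1) ∧ C ∣ u := by
    rintro _ ⟨⟨u, hu⟩, huk, rfl⟩
    refine ⟨hu, ?_⟩
    by_contra hndvd
    obtain ⟨p, hp, hpu⟩ := hno u hndvd (by
      have := (mem_restrictTotalDegree _ _ _).1 hu
      omega)
    apply hpu
    have h2 := LinearMap.mem_ker.1 huk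
    exact congrFun h2 ⟨p, hp⟩
  have hkey : Module.finrank F ((LinearMap.ker L).map (VV F (j - 1)).subtype) * 2 ≤
      (j - c) * (j - c + 1) := by
    by_cases hjc : j = c
    · have : (LinearMap.ker L).map (VV F (j - 1)).subtype = ⊥ := by
        rw [eq_bot_iff]
        intro u hu
        obtain ⟨hu1, w, rfl⟩ := hdiv u hu
        have hu1 := (mem_restrictTotalDegree _ _ _).1 hu1
        rw [Submodule.mem_bot]
        by_contra hne
        have hw : w ≠ 0 := fun h => hne (by rw [h, mul_zero])
        rw [totalDegree_mul_of_isDomain hC hw] at hu1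
        omega
      rw [this, finrank_bot]
      simp
    · have hle : (LinearMap.ker L).map (VV F (j - 1)).subtype ≤
          (VV F (j - 1 - c)).map (mulq C) := by
        intro u hu
        obtain ⟨hu1, w, rfl⟩ := hdiv u hu
        have hu1 := (mem_restrictTotalDegree _ _ _).1 hu1
        refine ⟨w, ?_, rfl⟩
        rw [SetLike.mem_coe, mem_restrictTotalDegree]
        rcases eq_or_ne w 0 with rfl | hw
        · simp
        · rw [totalDegree_mul_of_isDomain hC hw] at hu1
          omega
      have h3 := Submodule.finrank_mono hle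
      rw [finrank_map_mulq hC] at h3
      have h4 := finrank_VV (F := F) (j - 1 - c)
      have h5 : (j - 1 - c + 1) * (j - 1 - c + 2) = (j - c) * (j - c + 1) := by
        have : j - 1 - c + 1 = j - c := by omega
        rw [this]
        have : j - 1 - c + 2 = j - c + 1 := by omega
        rw [this]
      rw [h5] at h4
      omega
  rw [hfr] at hkey
  omega

/-- choosing `s` indices with at least average sum. -/
theorem rg_exists_subset_avg {ι : Type*} [DecidableEq ι] (a : ι → ℕ) (s : ℕ) (hs : 1 ≤ s) (k : ℕ) :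
    ∀ S : Finset ι, S.card = k → s ≤ k →
    ∃ D ⊆ S, D.card = s ∧ s * ∑ x ∈ S, a x ≤ k * ∑ x ∈ D, a x := by
  induction k with
  | zero =>
    intro S _ h
    omega
  | succ k ih =>
    intro S hS hsk
    rcases Nat.lt_or_ge k s with hlt | hge
    · have : s = k + 1 := by omega
      exact ⟨S, le_rfl, by omega, by rw [this]⟩
    · have hne : S.Nonempty := by
        rw [← Finset.card_pos]
        omega
      obtain ⟨x, hx, hmin⟩ := Finset.exists_min_image S a hne
      obtain ⟨D, hD, hDs, hle⟩ := ih (S.erase x) (by rw [Finset.card_erase_of_mem hx]; omega) hge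
      refine ⟨D, hD.trans (Finset.erase_subset _ _), hDs, ?_⟩
      have hsum : a x + ∑ y ∈ S.erase x, a y = ∑ y ∈ S, a y := Finset.add_sum_erase _ _ hx
      have hmin' : (k + 1) * a x ≤ ∑ y ∈ S, a y := by
        rw [← hS, ← smul_eq_mul, ← Finset.sum_const]
        exact Finset.sum_le_sum hmin
      have hk : 0 < k := by omega
      set A := ∑ y ∈ S.erase x, a y
      set B := ∑ y ∈ S, a y
      set Y := ∑ x ∈ D, a x
      -- s * k * B ≤ s * (k+1) * A ≤ (k+1) * k * Y
      have h1 : k * B ≤ (k + 1) * A := by nlinarith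
      have h2 : k * (s * B) ≤ k * ((k + 1) * Y) := by
        calc k * (s * B) = s * (k * B) := by ring
          _ ≤ s * ((k + 1) * A) := Nat.mul_le_mul_left _ h1
          _ = (k + 1) * (s * A) := by ring
          _ ≤ (k + 1) * (k * Y) := Nat.mul_le_mul_left _ hle
          _ = k * ((k + 1) * Y) := by ring
      exact Nat.le_of_mul_le_mul_left h2 hk

end P045.LS
end

section
/-! # P045 LS: plane and arithmetic lemmas for the rigidity theorem (helper849) -/

namespace P045.LS
open MvPolynomial

variable {F : Type} [Field F]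

theorem rg_exists_icpt_eq (p p' : Pt F) : ∃ d : Option F, icpt d p = icpt d p' := by
  classical
  by_cases h : p 0 = p' 0
  · exact ⟨none, h⟩
  · refine ⟨some ((p 1 - p' 1) / (p 0 - p' 0)), ?_⟩
    have h' : p 0 - p' 0 ≠ 0 := sub_ne_zero.2 h
    simp only [icpt]
    field_simp
    ring

theorem rg_icpt_dir_unique {p p' : Pt F} (hpp : p ≠ p') {d e : Option F}
    (hd : icpt d p = icpt d p') (he : icpt e p = icpt e p') : d = e := by
  have hext : ∀ (h0 : p 0 = p' 0) (h1 : p 1 = p' 1), False := by
    intro h0 h1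
    apply hpp
    funext i
    fin_cases i
    · exact h0
    · exact h1
  rcases d with _ | m <;> rcases e with _ | m'
  · rfl
  · exfalso
    simp only [icpt] at hd he
    rw [hd] at he
    exact hext hd (by linear_combination he)
  · exfalso
    simp only [icpt] at hd he
    rw [he] at hd
    exact hext he (by linear_combination hd)
  · simp only [icpt] at hd he
    congr 1
    by_contra hne
    have h1 : (m - m') * (p 0 - p' 0) = 0 := by linear_combination he - hd
    rcases mul_eq_zero.1 h1 with h | h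
    · exact hne (sub_eq_zero.1 h)
    · have h2 : p 0 = p' 0 := sub_eq_zero.1 h
      rw [h2] at hd
      exact hext h2 (by linear_combination hd)

theorem rg_ell_ne_zero (x : Line F) : ell x ≠ 0 := by
  intro h
  rcases x with ⟨_ | m, c⟩
  · have h1 : eval ![c + 1, 0] (ell (none, c)) = 0 := by rw [h]; simp
    simp [ell] at h1
  · have h1 : eval ![0, c + 1] (ell (some m, c)) = 0 := by rw [h]; simp
    simp [ell] at h1

/-- an irreducible polynomial of degree at least two has at most `deg` zeros on a line. -/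
theorem rg_card_line_le {C : MvPolynomial (Fin 2) F} (hC : Irreducible C) (hc : 2 ≤ C.totalDegree)
    (x : Line F) (Z : Finset (Pt F)) (hZ : ∀ p ∈ Z, eval p C = 0) (hx : ∀ p ∈ Z, On p x) :
    Z.card ≤ C.totalDegree := by
  have hnd : ¬ C ∣ ell x := by
    rintro ⟨w, hw⟩
    have hw0 : w ≠ 0 := by
      rintro rfl
      exact rg_ell_ne_zero x (by rw [hw, mul_zero])
    have h1 := ell_deg_le x
    rw [hw, totalDegree_mul_of_isDomain hC.ne_zero hw0] at h1
    omega
  have := bezout_bound hC hnd Z hZ (fun p hp => eval_ell_eq_zero.2 (hx p hp))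
  exact this.trans ((Nat.mul_le_mul_left _ (ell_deg_le x)).trans (by omega))

/-- zeros of an irreducible polynomial of degree one are on a line. -/
theorem rg_exists_line_of_deg_one {C : MvPolynomial (Fin 2) F} (hC : Irreducible C)
    (hc : C.totalDegree ≤ 1) (Z : Finset (Pt F)) (hZ : ∀ p ∈ Z, eval p C = 0) :
    ∃ x : Line F, ∀ p ∈ Z, On p x := by
  classical
  by_cases h : ∃ p ∈ Z, ∃ p' ∈ Z, p ≠ p'
  · obtain ⟨p, hp, p', hp', hne⟩ := h
    obtain ⟨d, hd⟩ := rg_exists_icpt_eq p p'
    have hdvd : C ∣ ell (d, icpt d p) := by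
      by_contra hnd
      have := bezout_bound hC hnd {p, p'} (by
        intro z hz
        rcases Finset.mem_insert.1 hz with rfl | hz
        · exact hZ _ hp
        · rw [Finset.mem_singleton.1 hz]
          exact hZ _ hp') (by
        intro z hz
        rw [eval_ell_eq_zero]
        rcases Finset.mem_insert.1 hz with rfl | hz
        · rfl
        · rw [Finset.mem_singleton.1 hz]
          exact hd.symm)
      rw [Finset.card_pair hne] at this
      have h1 := ell_deg_le (d, icpt d p)
      nlinarith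
    refine ⟨(d, icpt d p), ?_⟩
    intro z hz
    obtain ⟨w, hw⟩ := hdvd
    rw [← eval_ell_eq_zero, hw, map_mul, hZ z hz, zero_mul]
  · push Not at h
    rcases Z.eq_empty_or_nonempty with rfl | ⟨p, hp⟩
    · exact ⟨(none, 0), by simp⟩
    · refine ⟨(none, icpt none p), ?_⟩
      intro z hz
      rw [h z hz p hp]
      rfl

open Classical in
/-- `s` lines through a point of `Γ` covering at least the average. -/
theorem rg_exists_lines [Fintype F] {n : ℕ} (hn : Fintype.card F = n) (Γ : Finset (Pt F))
    {w0 : Pt F} (hw0 : w0 ∈ Γ) {s : ℕ} (hs1 : 1 ≤ s) (hsn : s ≤ n + 1) :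
    ∃ S : Finset (Line F), S.card ≤ s ∧
      (n + 1) * (Γ.filter (fun p => ∀ x ∈ S, ¬ On p x)).card ≤ (n + 1 - s) * Γ.card := by
  set A : Option F → Finset (Pt F) := fun d => (Γ.erase w0).filter
    (fun p => icpt d p = icpt d w0) with hA
  have hasum : ∑ d, (A d).card = Γ.card - 1 := by
    rw [← Finset.card_erase_of_mem hw0]
    have hmaps : ∀ p ∈ Γ.erase w0, (Classical.choose (rg_exists_icpt_eq p w0)) ∈
        (Finset.univ : Finset (Option F)) := fun _ _ => Finset.mem_univ _
    rw [Finset.card_eq_sum_card_fiberwise hmaps]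
    apply Finset.sum_congr rfl
    intro d _
    apply congrArg Finset.card
    apply Finset.filter_congr
    intro p hp
    have hpne := Finset.ne_of_mem_erase hp
    constructor
    · intro h
      exact rg_icpt_dir_unique hpne (Classical.choose_spec (rg_exists_icpt_eq p w0)) h
    · intro h
      rw [← h]
      exact Classical.choose_spec (rg_exists_icpt_eq p w0)
  have hcardO : (Finset.univ : Finset (Option F)).card = n + 1 := by
    rw [Finset.card_univ, Fintype.card_option, hn]
  obtain ⟨D, _, hDs, hDle⟩ := rg_exists_subset_avg (fun d => (A d).card) s hs1 (n + 1)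
    Finset.univ hcardO hsn
  rw [hasum] at hDle
  set S : Finset (Line F) := D.image (fun d => (d, icpt d w0)) with hS
  have hScard : S.card ≤ s := by
    rw [← hDs]
    exact Finset.card_image_le
  refine ⟨S, hScard, ?_⟩
  set rest := Γ.filter (fun p => ∀ x ∈ S, ¬ On p x) with hrest
  have hD0 : D.Nonempty := by
    rw [← Finset.card_pos]
    omega
  obtain ⟨d0, hd0⟩ := hD0
  have hsumD : ∑ d ∈ D, (A d).card = (D.biUnion A).card := by
    rw [Finset.card_biUnion]
    intro d _ e _ hde
    show Disjoint (A d) (A e)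
    rw [Finset.disjoint_left]
    intro p hp hp'
    rw [hA, Finset.mem_filter] at hp hp'
    exact hde (rg_icpt_dir_unique (Finset.ne_of_mem_erase hp.1) hp.2 hp'.2)
  have hdis1 : Disjoint rest (D.biUnion A) := by
    rw [Finset.disjoint_left]
    intro p hp hp'
    rw [Finset.mem_biUnion] at hp'
    obtain ⟨d, hd, hpd⟩ := hp'
    rw [hA, Finset.mem_filter] at hpd
    rw [hrest, Finset.mem_filter] at hp
    exact hp.2 (d, icpt d w0) (Finset.mem_image_of_mem _ hd) hpd.2
  have hw0n : w0 ∉ rest ∪ D.biUnion A := by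
    rw [Finset.mem_union, not_or]
    constructor
    · intro h
      rw [hrest, Finset.mem_filter] at h
      exact h.2 (d0, icpt d0 w0) (Finset.mem_image_of_mem _ hd0) rfl
    · intro h
      rw [Finset.mem_biUnion] at h
      obtain ⟨d, _, hpd⟩ := h
      rw [hA, Finset.mem_filter] at hpd
      exact (Finset.ne_of_mem_erase hpd.1) rfl
  have hrestcard : rest.card + ∑ d ∈ D, (A d).card + 1 ≤ Γ.card := by
    rw [hsumD, ← Finset.card_union_of_disjoint hdis1, ← Finset.card_insert_of_notMem hw0n]
    apply Finset.card_le_card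
    intro p hp
    rcases Finset.mem_insert.1 hp with rfl | hp
    · exact hw0
    · rcases Finset.mem_union.1 hp with hp | hp
      · exact (Finset.mem_filter.1 hp).1
      · rw [Finset.mem_biUnion] at hp
        obtain ⟨d, _, hpd⟩ := hp
        rw [hA] at hpd
        exact Finset.mem_of_mem_erase (Finset.mem_filter.1 hpd).1
  clear_value rest
  obtain ⟨g, hg⟩ : ∃ g, Γ.card = g + 1 := ⟨Γ.card - 1, by
    have : 0 < Γ.card := Finset.card_pos.2 ⟨w0, hw0⟩
    omega⟩
  obtain ⟨v, hv⟩ := Nat.exists_eq_add_of_le hsn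
  have e1 : n + 1 - s = v := by omega
  rw [e1]
  have e2 : Γ.card - 1 = g := by omega
  rw [e2] at hDle
  set Y := ∑ d ∈ D, (A d).card
  have h5 : (n + 1) * (rest.card + Y + 1) ≤ (n + 1) * (g + 1) := by
    apply Nat.mul_le_mul_left
    omega
  rw [hg]
  have h6 : (n + 1) * g = s * g + v * g := by rw [hv]; ring
  nlinarith

theorem rg_arith_vanish {c j r : ℕ} (hcj : c ≤ j) (h : 2 * r < c * (2 * j - c + 1)) :
    2 * r + (j - c) * (j - c + 1) < j * (j + 1) := by
  obtain ⟨e, he⟩ := Nat.exists_eq_add_of_le hcj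
  have e1 : j - c = e := by omega
  have e2 : 2 * j - c + 1 = c + 2 * e + 1 := by omega
  rw [e2] at h
  rw [e1, he]
  nlinarith

theorem rg_arith_iv {n c j s G r : ℕ} (hc : 2 ≤ c) (hcj : c ≤ j) (hsn : s ≤ n + 1)
    (hbez : G ≤ c * j) (hlow : c * (2 * j - c + 1) ≤ 2 * r)
    (hA1 : (n + 1) * r ≤ (n + 1 - s) * G) :
    2 * s < n + 1 ∧ 2 * (j * s) + (n + 1) ≤ (n + 1) * c := by
  have hA2 : (n + 1) * (2 * j - c + 1) ≤ 2 * ((n + 1 - s) * j) := by
    have h6 : c * ((n + 1) * (2 * j - c + 1)) ≤ c * (2 * ((n + 1 - s) * j)) := by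
      calc c * ((n + 1) * (2 * j - c + 1)) = (n + 1) * (c * (2 * j - c + 1)) := by ring
        _ ≤ (n + 1) * (2 * r) := Nat.mul_le_mul_left _ hlow
        _ = 2 * ((n + 1) * r) := by ring
        _ ≤ 2 * ((n + 1 - s) * G) := Nat.mul_le_mul_left _ hA1
        _ ≤ 2 * ((n + 1 - s) * (c * j)) := by
            apply Nat.mul_le_mul_left
            exact Nat.mul_le_mul_left _ hbez
        _ = c * (2 * ((n + 1 - s) * j)) := by ring
    exact Nat.le_of_mul_le_mul_left h6 (by omega)
  have hA3 : 2 * (j * s) + (n + 1) ≤ (n + 1) * c := by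
    obtain ⟨v, hv⟩ := Nat.exists_eq_add_of_le hsn
    have e1 : n + 1 - s = v := by omega
    rw [e1] at hA2
    obtain ⟨e, he⟩ := Nat.exists_eq_add_of_le hcj
    have e2 : 2 * j - c + 1 = 2 * e + c + 1 := by omega
    rw [e2, hv] at hA2
    rw [hv]
    rw [he] at hA2 ⊢
    nlinarith
  refine ⟨?_, hA3⟩
  by_contra hge
  push Not at hge
  have : (n + 1) * c ≤ 2 * (j * s) := by
    calc (n + 1) * c ≤ (2 * s) * j := Nat.mul_le_mul hge hcj
      _ = 2 * (j * s) := by ring
  omega

theorem rg_arith_iv2 {n c j s : ℕ} (hs1 : 1 ≤ s) (hA3 : 2 * (j * s) + (n + 1) ≤ (n + 1) * c)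
    (hA5 : n + 1 < 4 * j) : s + 2 < 2 * c := by
  by_contra hge
  push Not at hge
  have h7 : (n + 1) * (2 * c) ≤ (n + 1) * (s + 2) := Nat.mul_le_mul_left _ hge
  have h8 : (n + 1) * s < 4 * j * s := Nat.mul_lt_mul_of_pos_right hA5 (by omega)
  nlinarith

end P045.LS
end

section
/-! # P045 LS: rigidity theorem (helper849) -/

namespace P045.LS
open MvPolynomial

variable {F : Type} [Field F]

open Classical in
theorem rg_min_poly {Pr : MvPolynomial (Fin 2) F → Prop} (h : ∃ f, Pr f) :
    ∃ f, Pr f ∧ ∀ g, Pr g → f.totalDegree ≤ g.totalDegree := by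
  have hex : ∃ d, ∃ f, Pr f ∧ f.totalDegree = d := by
    obtain ⟨f, hf⟩ := h
    exact ⟨_, f, hf, rfl⟩
  obtain ⟨f, hf, hd⟩ := Nat.find_spec hex
  refine ⟨f, hf, ?_⟩
  intro g hg
  rw [hd]
  exact Nat.find_min' hex ⟨g, hg, rfl⟩

open Classical in
/-- incidence count (v). -/
theorem rg_incid [Fintype F] {M rho : ℕ} {C : MvPolynomial (Fin 2) F} (hC : Irreducible C)
    (hc2 : 2 ≤ C.totalDegree) (Γ : Finset (Pt F)) (hΓC : ∀ p ∈ Γ, eval p C = 0)
    (wt : Line F → ℕ) (hM : ∑ x, wt x ≤ M)
    (hrho : ∀ w ∈ Γ, rho ≤ ∑ x ∈ Finset.univ.filter (fun x => On w x), wt x) :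
    rho * Γ.card ≤ C.totalDegree * M := by
  calc rho * Γ.card = ∑ w ∈ Γ, rho := by rw [Finset.sum_const, smul_eq_mul, mul_comm]
    _ ≤ ∑ w ∈ Γ, ∑ x ∈ Finset.univ.filter (fun x => On w x), wt x :=
        Finset.sum_le_sum hrho
    _ = ∑ w ∈ Γ, ∑ x, if On w x then wt x else 0 := by
        apply Finset.sum_congr rfl
        intro w _
        rw [Finset.sum_filter]
    _ = ∑ x, ∑ w ∈ Γ, if On w x then wt x else 0 := Finset.sum_comm
    _ = ∑ x, (Γ.filter (fun w => On w x)).card * wt x := by
        apply Finset.sum_congr rfl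
        intro x _
        rw [← Finset.sum_filter, Finset.sum_const, smul_eq_mul]
    _ ≤ ∑ x, C.totalDegree * wt x := by
        apply Finset.sum_le_sum
        intro x _
        apply Nat.mul_le_mul_right
        apply rg_card_line_le hC hc2 x
        · intro p hp
          exact hΓC p (Finset.mem_filter.1 hp).1
        · intro p hp
          exact (Finset.mem_filter.1 hp).2
    _ = C.totalDegree * ∑ x, wt x := by rw [Finset.mul_sum]
    _ ≤ C.totalDegree * M := Nat.mul_le_mul_left _ hM

open Classical in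
/-- core of the rigidity theorem: the part after the choice of `C` and `Φ'`. -/
theorem rg_core [Fintype F] {n T E K : ℕ} (hn : Fintype.card F = n) (U : Finset (Pt F))
    (hCB : CB U (n - T - 2)) (hT : T + 2 ≤ n)
    (hE : ∀ x : Line F, (U.filter (fun p => On p x)).card ≤ E)
    (h1 : 4 * (E + T + K) ≤ n + 1)
    {C Φ' : MvPolynomial (Fin 2) F} (hC : Irreducible C) (hΦ'0 : Φ' ≠ 0)
    (hkapK : C.totalDegree + Φ'.totalDegree ≤ K)
    (hmin : ∀ Ψ : MvPolynomial (Fin 2) F, Ψ ≠ 0 → (∀ p ∈ U, eval p Ψ = 0) →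
      C.totalDegree + Φ'.totalDegree ≤ Ψ.totalDegree)
    (hc2 : 2 ≤ C.totalDegree)
    (Γ : Finset (Pt F)) (hΓ : ∀ p, p ∈ Γ ↔ p ∈ U ∧ eval p Φ' ≠ 0) (hΓne : Γ.Nonempty)
    (hΓC : ∀ p ∈ Γ, eval p C = 0) :
    ∃ j, C.totalDegree ≤ j ∧ C.totalDegree * (2 * j - C.totalDegree + 1) ≤ 2 * Γ.card ∧
      n + 4 ≤ j + (E + T + (C.totalDegree + Φ'.totalDegree)) + C.totalDegree := by
  have hC0 : C ≠ 0 := hC.ne_zero
  obtain ⟨c, hc⟩ : ∃ c, c = C.totalDegree := ⟨_, rfl⟩
  rw [← hc] at hkapK hc2 hmin ⊢
  obtain ⟨f0, ⟨hf0C, hf0Γ⟩, hf0min⟩ := rg_min_poly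
    (Pr := fun f => ¬ C ∣ f ∧ ∀ p ∈ Γ, eval p f = 0) (by
    obtain ⟨f, hfC, _, hfU⟩ := rg_exists_vanish_not_dvd hC0 (j := Γ.card + c) (by omega)
      (by omega) Γ
      (by
        rw [← hc]
        have : Γ.card + c - c = Γ.card := by omega
        rw [this]
        nlinarith)
    exact ⟨f, hfC, hfU⟩)
  have hbez0 : Γ.card ≤ C.totalDegree * f0.totalDegree := bezout_bound hC hf0C Γ hΓC hf0Γ
  obtain ⟨j, hj⟩ : ∃ j, j = f0.totalDegree := ⟨_, rfl⟩
  rw [← hc, ← hj] at hbez0
  rw [← hj] at hf0min
  have hf00 : f0 ≠ 0 := by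
    rintro rfl
    exact hf0C (dvd_zero _)
  have hcj : c ≤ j := by
    have := hmin (f0 * Φ') (mul_ne_zero hf00 hΦ'0) (by
      intro p hp
      rw [map_mul]
      by_cases hp' : eval p Φ' = 0
      · rw [hp', mul_zero]
      · rw [hf0Γ p ((hΓ p).2 ⟨hp, hp'⟩), zero_mul])
    rw [totalDegree_mul_of_isDomain hf00 hΦ'0] at this
    omega
  have hkey : ∀ S : Finset (Line F),
      (j - 1) + Φ'.totalDegree + S.card + E ≤ n - T - 2 + 2 →
      c * (2 * j - c + 1) ≤ 2 * (Γ.filter (fun p => ∀ x ∈ S, ¬ On p x)).card := by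
    intro S hS
    by_contra hlt
    push Not at hlt
    obtain ⟨f, hfC, hfd, hfr⟩ := rg_exists_vanish_not_dvd hC0 (j := j) (by omega)
      (by omega) (Γ.filter (fun p => ∀ x ∈ S, ¬ On p x))
      (by
        rw [← hc]
        exact rg_arith_vanish hcj hlt)
    have hBB := lemmaB hCB hE S (G := f * Φ') (by
        have := totalDegree_mul f Φ'
        omega) (by
        intro p hp hpS
        rw [map_mul]
        by_cases hp' : eval p Φ' = 0
        · rw [hp', mul_zero]
        · rw [hfr p (Finset.mem_filter.2 ⟨(hΓ p).2 ⟨hp, hp'⟩, hpS⟩), zero_mul])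
    have := hf0min f ⟨hfC, by
      intro p hp
      obtain ⟨hpU, hp'⟩ := (hΓ p).1 hp
      have h3 := hBB p hpU
      rw [map_mul] at h3
      exact (mul_eq_zero.1 h3).resolve_right hp'⟩
    omega
  have hiii : c * (2 * j - c + 1) ≤ 2 * Γ.card := by
    by_contra hlt
    push Not at hlt
    obtain ⟨f, hfC, hfd, hfr⟩ := rg_exists_vanish_not_dvd hC0 (j := j) (by omega)
      (by omega) Γ
      (by
        rw [← hc]
        exact rg_arith_vanish hcj hlt)
    have := hf0min f ⟨hfC, hfr⟩
    omega
  refine ⟨j, hcj, hiii, ?_⟩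
  rcases Nat.lt_or_ge n (j + (E + T + Φ'.totalDegree)) with hbig | hsmall
  · omega
  · obtain ⟨s, hs⟩ : ∃ s, s = n + 1 - (E + T + Φ'.totalDegree) - j := ⟨_, rfl⟩
    have hs1 : 1 ≤ s := by omega
    have hsn : s ≤ n + 1 := by omega
    obtain ⟨w0, hw0⟩ := hΓne
    obtain ⟨S, hS, hA1⟩ := rg_exists_lines hn Γ hw0 hs1 hsn
    have hlow := hkey S (by omega)
    obtain ⟨hA4, hA3⟩ := rg_arith_iv hc2 hcj hsn hbez0 hlow hA1
    have hA6 := rg_arith_iv2 hs1 hA3 (by omega)
    omega

open Classical in
/-- **Rigidity theorem**, from the Cayley-Bacharach property. -/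
theorem rg_rigid_cb [Fintype F] {n T E M rho K : ℕ} (hn : Fintype.card F = n)
    (U : Finset (Pt F)) (hT : T + 2 ≤ n) (hCB : CB U (n - T - 2))
    (hE : ∀ x : Line F, (U.filter (fun p => On p x)).card ≤ E)
    (wt : Line F → ℕ) (hM : ∑ x, wt x ≤ M) (hrho0 : 0 < rho)
    (hrho : ∀ w ∈ U, rho ≤ ∑ x ∈ Finset.univ.filter (fun x => On w x), wt x)
    (hK : 2 * U.card < (K + 1) * (K + 2))
    (h1 : 4 * (E + T + K) ≤ n + 1) (h2 : 2 * M + rho * (2 * E + 2 * T + 5 * K) ≤ 2 * rho * n) :
    U = ∅ := by
  by_contra hne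
  have hUne : U.Nonempty := Finset.nonempty_iff_ne_empty.2 hne
  obtain ⟨f, hf0, hfK, hfU⟩ := rg_exists_vanish U hK
  -- minimal polynomial vanishing on `U`
  obtain ⟨Φ, ⟨hΦ0, hΦU⟩, hΦmin⟩ := rg_min_poly
    (Pr := fun Φ => Φ ≠ 0 ∧ ∀ p ∈ U, eval p Φ = 0) ⟨f, hf0, hfU⟩
  have hkapK : Φ.totalDegree ≤ K := (hΦmin f ⟨hf0, hfU⟩).trans hfK
  have hΦunit : ¬ IsUnit Φ := by
    intro hu
    obtain ⟨p, hp⟩ := hUne
    exact (hu.map (eval p)).ne_zero (hΦU p hp)
  obtain ⟨C, hC, Φ', hΦ'⟩ := WfDvdMonoid.exists_irreducible_factor hΦunit hΦ0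
  have hΦ'0 : Φ' ≠ 0 := by
    rintro rfl
    exact hΦ0 (by rw [hΦ', mul_zero])
  have hC0 : C ≠ 0 := hC.ne_zero
  have hdegs : Φ.totalDegree = C.totalDegree + Φ'.totalDegree := by
    rw [hΦ', totalDegree_mul_of_isDomain hC0 hΦ'0]
  rw [hdegs] at hkapK hΦmin
  have hc1 : 1 ≤ C.totalDegree := by
    by_contra h0
    have h0' : C.totalDegree = 0 := by omega
    rw [totalDegree_eq_zero_iff_eq_C] at h0'
    apply hC.not_isUnit
    rw [h0']
    apply IsUnit.map
    rw [isUnit_iff_ne_zero]
    intro h00
    rw [h00, C_0] at h0'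
    exact hC0 h0'
  -- Gamma
  obtain ⟨Γ, hΓ⟩ : ∃ Γ : Finset (Pt F), ∀ p, p ∈ Γ ↔ p ∈ U ∧ eval p Φ' ≠ 0 :=
    ⟨U.filter (fun p => eval p Φ' ≠ 0), fun p => by rw [Finset.mem_filter]⟩
  have hΓC : ∀ p ∈ Γ, eval p C = 0 := by
    intro p hp
    obtain ⟨hpU, hp'⟩ := (hΓ p).1 hp
    have := hΦU p hpU
    rw [hΦ', map_mul] at this
    exact (mul_eq_zero.1 this).resolve_right hp'
  have hΓne : Γ.Nonempty := by
    by_contra hemp
    rw [Finset.not_nonempty_iff_eq_empty] at hemp
    have := hΦmin Φ' ⟨hΦ'0, fun p hp => by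
      by_contra hp'
      have := (hΓ p).2 ⟨hp, hp'⟩
      rw [hemp] at this
      exact absurd this (Finset.notMem_empty _)⟩
    omega
  rcases Nat.lt_or_ge C.totalDegree 2 with hc2 | hc2
  · obtain ⟨x, hx⟩ := rg_exists_line_of_deg_one hC (by omega) Γ hΓC
    have hA := lemmaA hCB hE x (G := Φ') (by omega) (by
      intro p hp hpx
      by_contra hne
      exact hpx (hx p ((hΓ p).2 ⟨hp, hne⟩)))
    obtain ⟨w, hw⟩ := hΓne
    obtain ⟨hwU, hw'⟩ := (hΓ w).1 hw
    exact hw' (hA w hwU)
  obtain ⟨j, hcj, hiii, hiv⟩ := rg_core hn U hCB hT hE h1 hC hΦ'0 hkapK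
    (fun Ψ h0 h3 => hΦmin Ψ ⟨h0, h3⟩) hc2 Γ hΓ hΓne hΓC
  have hv1 := rg_incid hC hc2 Γ hΓC wt hM (fun w hw => hrho w ((hΓ w).1 hw).1)
  clear hCB hΦmin hΓC hΓ
  generalize C.totalDegree = c at *
  generalize Φ'.totalDegree = e at *
  have hv2 : rho * (2 * j - c + 1) ≤ 2 * M := by
    have h6 : c * (rho * (2 * j - c + 1)) ≤ c * (2 * M) := by
      calc c * (rho * (2 * j - c + 1)) = rho * (c * (2 * j - c + 1)) := by ring
        _ ≤ rho * (2 * Γ.card) := Nat.mul_le_mul_left _ hiii
        _ = 2 * (rho * Γ.card) := by ring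
        _ ≤ 2 * (c * M) := Nat.mul_le_mul_left _ hv1
        _ = c * (2 * M) := by ring
    exact Nat.le_of_mul_le_mul_left h6 (by omega)
  have hv3 : 2 * n + 1 ≤ (2 * j - c + 1) + (2 * E + 2 * T + 5 * K) := by omega
  have hv4 : rho * (2 * n + 1) ≤ rho * ((2 * j - c + 1) + (2 * E + 2 * T + 5 * K)) :=
    Nat.mul_le_mul_left _ hv3
  have hv5 : rho * (2 * n + 1) = 2 * rho * n + rho := by ring
  have hv6 : rho * ((2 * j - c + 1) + (2 * E + 2 * T + 5 * K)) =
    rho * (2 * j - c + 1) + rho * (2 * E + 2 * T + 5 * K) := by ring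
  omega

/-! ## the statements of the skeleton -/

section Skel
variable [Fintype F] [DecidableEq F]

theorem rigid_cb (U : Finset (Pt F)) (T E M ρ κ : ℕ) (hT : T + 2 ≤ Fintype.card F)
    (hcb : CB U (Fintype.card F - T - 2))
    (hE : ∀ x : Line F, (U.filter fun p => On p x).card ≤ E)
    (hU : U.card < (κ + 2).choose 2) (wt : Line F → ℕ) (hM : ∑ x, wt x ≤ M)
    (hρ0 : 0 < ρ)
    (hρ : ∀ w ∈ U, ρ ≤ ∑ x ∈ Finset.univ.filter fun x : Line F => On w x, wt x)
    (h1 : 4 * (E + T + κ) ≤ Fintype.card F + 1)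
    (h2 : 2 * M + ρ * (2 * E + 2 * T + 5 * κ) ≤ 2 * ρ * Fintype.card F) : U = ∅ := by
  refine rg_rigid_cb rfl U hT hcb (fun x => ?_) wt hM hρ0 (fun w hw => ?_) ?_ h1 h2
  · convert hE x
  · convert hρ w hw
  · have h := Nat.choose_two_right (κ + 2)
    have h3 : (κ + 2) * (κ + 2 - 1) = (κ + 1) * (κ + 2) := by
      have : κ + 2 - 1 = κ + 1 := by omega
      rw [this, mul_comm]
    rw [h3] at h
    omega

/-- rigidity: few lines covering all points of `Ω` cover the whole plane -/
theorem rigid (Ω : Finset (Pt F)) (t E M ρ κ : ℕ) (hT : t + 3 ≤ Fintype.card F)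
    (hE : ∀ x : Line F, (Finset.univ.filter fun p => On p x ∧ p ∉ Ω).card ≤ E)
    (hU : (Ωᶜ).card < (κ + 2).choose 2) (wt : Line F → ℕ) (hM : ∑ x, wt x ≤ M)
    (hρ0 : 0 < ρ)
    (hρ : ∀ w, w ∉ Ω → ρ ≤ ∑ x ∈ Finset.univ.filter fun x : Line F => On w x, wt x)
    (h1 : 4 * (E + (t + 1) + κ) ≤ Fintype.card F + 1)
    (h2 : 2 * M + ρ * (2 * E + 2 * (t + 1) + 5 * κ) ≤ 2 * ρ * Fintype.card F)
    (L : Finset (Line F)) (hL : L.card ≤ Fintype.card F + t)
    (hcov : ∀ p ∈ Ω, ∃ x ∈ L, On p x) : ∀ p, ∃ x ∈ L, On p x := by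
  classical
  set U : Finset (Pt F) := Finset.univ.filter (fun p => ∀ x ∈ L, ¬ On p x) with hUdef
  have hUmem : ∀ p, p ∈ U ↔ ∀ x ∈ L, ¬ On p x := by
    intro p
    rw [hUdef, Finset.mem_filter]
    simp
  have hUΩ : ∀ p ∈ U, p ∉ Ω := by
    intro p hp hpΩ
    obtain ⟨x, hx, hpx⟩ := hcov p hpΩ
    exact (hUmem p).1 hp x hx hpx
  have hUc : U ⊆ Ωᶜ := fun p hp => Finset.mem_compl.2 (hUΩ p hp)
  have hemp : U = ∅ := by
    refine rigid_cb U (t + 1) E M ρ κ (by omega) ?_ ?_ ?_ wt hM hρ0 ?_ h1 h2
    · exact cb_of_cover (T := t + 1) rfl L (by omega) U hUmem _ (by omega)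
    · intro x
      refine (Finset.card_le_card ?_).trans (hE x)
      intro p hp
      rw [Finset.mem_filter] at hp ⊢
      exact ⟨Finset.mem_univ _, hp.2, hUΩ p hp.1⟩
    · exact (Finset.card_le_card hUc).trans_lt hU
    · intro w hw
      exact hρ w (hUΩ w hw)
  intro p
  by_contra hno
  push Not at hno
  have : p ∈ U := (hUmem p).2 hno
  rw [hemp] at this
  exact absurd this (Finset.notMem_empty _)

end Skel

end P045.LS
end

section
/-!
# Affine form of the dual Bruen theorem

A set of fewer than `n + √n` lines covering the affine plane of order `n` contains all lines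
through a point or all lines of a direction.
-/

namespace P045.LS

open Finset

namespace Bruen

variable {F : Type} [Field F]

/-- two points with the same intercepts in two directions are equal -/
lemma eq_of_icpt {d d' : Option F} (h : d ≠ d') {p q : Pt F} (h1 : icpt d p = icpt d q)
    (h2 : icpt d' p = icpt d' q) : p = q := by
  have key : ∀ (m : F) (p q : Pt F), p 0 = q 0 → p 1 - m * p 0 = q 1 - m * q 0 → p = q := by
    intro m p q h0 h1
    funext i
    fin_cases i
    · exact h0
    · show p 1 = q 1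
      rw [h0] at h1
      exact sub_left_injective h1
  cases d with
  | none =>
    cases d' with
    | none => exact absurd rfl h
    | some m => exact key m p q h1 h2
  | some m =>
    cases d' with
    | none => exact key m p q h2 h1
    | some m' =>
      have hm : m ≠ m' := fun e => h (by rw [e])
      have e1 : p 1 - m * p 0 = q 1 - m * q 0 := h1
      have e2 : p 1 - m' * p 0 = q 1 - m' * q 0 := h2
      have e3 : (m' - m) * (p 0 - q 0) = 0 := by linear_combination e1 - e2
      rcases mul_eq_zero.1 e3 with h3 | h3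
      · exact absurd (sub_eq_zero.1 h3).symm hm
      · exact key m p q (sub_eq_zero.1 h3) e1

/-- two lines of different directions meet -/
lemma exists_icpt {d d' : Option F} (h : d ≠ d') (c c' : F) :
    ∃ p : Pt F, icpt d p = c ∧ icpt d' p = c' := by
  cases d with
  | none =>
    cases d' with
    | none => exact absurd rfl h
    | some m =>
      refine ⟨![c, c' + m * c], ?_, ?_⟩
      · simp [icpt]
      · simp [icpt]
  | some m =>
    cases d' with
    | none =>
      refine ⟨![c', c + m * c'], ?_, ?_⟩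
      · simp [icpt]
      · simp [icpt]
    | some m' =>
      have hm : m' - m ≠ 0 := fun e => h (by rw [sub_eq_zero.1 e])
      refine ⟨![(c - c') / (m' - m), c + m * ((c - c') / (m' - m))], ?_, ?_⟩
      · simp [icpt]
      · simp only [icpt, Matrix.cons_val_zero, Matrix.cons_val_one]
        field_simp
        ring

variable [Fintype F] [DecidableEq F]

/-- number of points of a line -/
lemma card_line (d : Option F) (c : F) :
    (univ.filter fun p : Pt F => icpt d p = c).card = Fintype.card F := by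
  classical
  -- use a second direction
  obtain ⟨d', hd'⟩ : ∃ d' : Option F, d ≠ d' := by
    cases d with
    | none => exact ⟨some 0, by simp⟩
    | some m => exact ⟨none, by simp⟩
  rw [← Finset.card_univ (α := F)]
  refine Finset.card_bij (fun p _ => icpt d' p) (fun _ _ => mem_univ _) ?_ ?_
  · intro p hp q hq h
    exact eq_of_icpt hd' ((mem_filter.1 hp).2.trans (mem_filter.1 hq).2.symm) h
  · intro c' _
    obtain ⟨p, h1, h2⟩ := exists_icpt hd' c c'
    exact ⟨p, mem_filter.2 ⟨mem_univ _, h1⟩, h2⟩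

lemma card_inter {d d' : Option F} (h : d ≠ d') (c c' : F) :
    (univ.filter fun p : Pt F => icpt d p = c ∧ icpt d' p = c').card = 1 := by
  rw [Finset.card_eq_one]
  obtain ⟨p, h1, h2⟩ := exists_icpt h c c'
  refine ⟨p, ?_⟩
  ext q
  rw [mem_filter, mem_singleton]
  constructor
  · rintro ⟨-, h3, h4⟩
    exact eq_of_icpt h (h3.trans h1.symm) (h4.trans h2.symm)
  · rintro rfl
    exact ⟨mem_univ _, h1, h2⟩

variable (LL : Finset (Line F))

/-- number of lines through a point -/
def pdeg (p : Pt F) : ℕ := (LL.filter fun x => icpt x.1 p = x.2).card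

/-- number of lines of a direction -/
def ddeg (d : Option F) : ℕ := (LL.filter fun x => x.1 = d).card

lemma sum_pdeg : ∑ p, pdeg LL p = Fintype.card F * LL.card := by
  unfold pdeg
  simp_rw [Finset.card_filter]
  rw [Finset.sum_comm]
  have h : ∀ x ∈ LL, (∑ p : Pt F, if icpt x.1 p = x.2 then 1 else 0) = Fintype.card F := by
    intro x _
    rw [← Finset.card_filter, card_line]
  rw [Finset.sum_congr rfl h, Finset.sum_const, smul_eq_mul, mul_comm]

omit [Field F] in
lemma sum_ddeg : ∑ d, ddeg LL d = LL.card := by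
  unfold ddeg
  simp_rw [Finset.card_filter]
  rw [Finset.sum_comm]
  simp

lemma sum_sq : ∑ p, pdeg LL p ^ 2 + ∑ d, ddeg LL d ^ 2 =
    Fintype.card F * LL.card + LL.card ^ 2 := by
  have h1 : ∑ p, pdeg LL p ^ 2 = ∑ x ∈ LL, ∑ y ∈ LL,
      (univ.filter fun p : Pt F => icpt x.1 p = x.2 ∧ icpt y.1 p = y.2).card := by
    have : ∀ p : Pt F, pdeg LL p ^ 2 = ∑ x ∈ LL, ∑ y ∈ LL,
        if icpt x.1 p = x.2 ∧ icpt y.1 p = y.2 then 1 else 0 := by
      intro p
      unfold pdeg
      rw [Finset.card_filter, sq, Finset.sum_mul_sum]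
      refine Finset.sum_congr rfl fun x _ => Finset.sum_congr rfl fun y _ => ?_
      by_cases hx : icpt x.1 p = x.2 <;> by_cases hy : icpt y.1 p = y.2 <;> simp [hx, hy]
    simp_rw [this]
    rw [Finset.sum_comm]
    refine Finset.sum_congr rfl fun x _ => ?_
    rw [Finset.sum_comm]
    refine Finset.sum_congr rfl fun y _ => ?_
    rw [Finset.card_filter]
  have h2 : ∑ d, ddeg LL d ^ 2 = ∑ x ∈ LL, ∑ y ∈ LL, if x.1 = y.1 then 1 else 0 := by
    have : ∀ d : Option F, ddeg LL d ^ 2 = ∑ x ∈ LL, ∑ y ∈ LL,
        if x.1 = d ∧ y.1 = d then 1 else 0 := by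
      intro d
      unfold ddeg
      rw [Finset.card_filter, sq, Finset.sum_mul_sum]
      refine Finset.sum_congr rfl fun x _ => Finset.sum_congr rfl fun y _ => ?_
      by_cases hx : x.1 = d <;> by_cases hy : y.1 = d <;> simp [hx, hy]
    simp_rw [this]
    rw [Finset.sum_comm]
    refine Finset.sum_congr rfl fun x _ => ?_
    rw [Finset.sum_comm]
    refine Finset.sum_congr rfl fun y _ => ?_
    by_cases h : x.1 = y.1
    · rw [if_pos h, Finset.sum_eq_single x.1]
      · rw [if_pos ⟨rfl, h.symm⟩]
      · intro d _ hd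
        rw [if_neg fun e => hd e.1.symm]
      · intro h'
        exact absurd (mem_univ _) h'
    · rw [if_neg h]
      refine Finset.sum_eq_zero fun d _ => ?_
      rw [if_neg fun e => h (e.1.trans e.2.symm)]
  rw [h1, h2, ← Finset.sum_add_distrib]
  have h3 : ∀ x ∈ LL, (∑ y ∈ LL,
      (univ.filter fun p : Pt F => icpt x.1 p = x.2 ∧ icpt y.1 p = y.2).card +
      ∑ y ∈ LL, if x.1 = y.1 then 1 else 0) = Fintype.card F + LL.card := by
    intro x hx
    rw [← Finset.sum_add_distrib]
    have h4 : ∀ y ∈ LL, (univ.filter fun p : Pt F => icpt x.1 p = x.2 ∧ icpt y.1 p = y.2).card +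
        (if x.1 = y.1 then 1 else 0) = (if y = x then Fintype.card F else 0) + 1 := by
      intro y _
      by_cases hd : x.1 = y.1
      · by_cases hc : x.2 = y.2
        · have hxy : y = x := Prod.ext hd.symm hc.symm
          subst hxy
          simp [card_line]
        · have hxy : y ≠ x := fun e => hc (by rw [e])
          rw [if_pos hd, if_neg hxy]
          congr 1
          rw [Finset.card_eq_zero, Finset.filter_eq_empty_iff]
          rintro p - ⟨h5, h6⟩
          rw [hd, h6] at h5
          exact hc h5.symm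
      · have hxy : y ≠ x := fun e => hd (by rw [e])
        rw [if_neg hd, if_neg hxy, card_inter hd]
    rw [Finset.sum_congr rfl h4, Finset.sum_add_distrib, Finset.sum_ite_eq', if_pos hx]
    simp
  rw [Finset.sum_congr rfl h3, Finset.sum_const, smul_eq_mul]
  ring

variable {LL}

lemma ddeg_le (hcov : ∀ p : Pt F, ∃ x ∈ LL, icpt x.1 p = x.2) {d : Option F} {c : F}
    (h : (d, c) ∉ LL) : ddeg LL d + Fintype.card F ≤ LL.card := by
  choose f hf hf' using hcov
  have hne : ∀ p, icpt d p = c → (f p).1 ≠ d := by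
    intro p hp e
    apply h
    have : f p = (d, c) := Prod.ext e (by rw [← hf' p, e, hp])
    rw [← this]
    exact hf p
  have h1 : (univ.filter fun p : Pt F => icpt d p = c).card ≤
      (LL.filter fun x => ¬ x.1 = d).card := by
    refine Finset.card_le_card_of_injOn f ?_ ?_
    · intro p hp
      have hp' := (mem_filter.1 hp).2
      exact mem_filter.2 ⟨hf p, hne p hp'⟩
    · intro p hp q hq e
      have hp' := (mem_filter.1 hp).2
      have hq' := (mem_filter.1 hq).2
      refine eq_of_icpt (hne p hp') ?_ (hp'.trans hq'.symm)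
      rw [hf' p, e, hf' q]
  rw [card_line] at h1
  have h2 := Finset.card_filter_add_card_filter_not (s := LL) (fun x => x.1 = d)
  unfold ddeg
  omega

lemma pdeg_le (hcov : ∀ p : Pt F, ∃ x ∈ LL, icpt x.1 p = x.2) {p : Pt F} {d : Option F}
    (h : (d, icpt d p) ∉ LL) : pdeg LL p + Fintype.card F ≤ LL.card + 1 := by
  choose f hf hf' using hcov
  have hne : ∀ q, icpt d q = icpt d p → (f q).1 ≠ d := by
    intro q hq e
    apply h
    have : f q = (d, icpt d p) := Prod.ext e (by rw [← hf' q, e, hq])
    rw [← this]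
    exact hf q
  have h1 : ((univ.filter fun q : Pt F => icpt d q = icpt d p).erase p).card ≤
      (LL.filter fun x => ¬ icpt x.1 p = x.2).card := by
    refine Finset.card_le_card_of_injOn f ?_ ?_
    · intro q hq
      obtain ⟨hqp, hq⟩ := mem_erase.1 hq
      have hq' := (mem_filter.1 hq).2
      refine mem_filter.2 ⟨hf q, fun e => hqp ?_⟩
      exact eq_of_icpt (hne q hq') ((hf' q).trans e.symm) hq'
    · intro q hq q' hq' e
      have h3 := (mem_filter.1 (mem_erase.1 hq).2).2
      have h4 := (mem_filter.1 (mem_erase.1 hq').2).2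
      refine eq_of_icpt (hne q h3) ?_ (h3.trans h4.symm)
      rw [hf' q, e, hf' q']
  have hmem : p ∈ univ.filter fun q : Pt F => icpt d q = icpt d p :=
    mem_filter.2 ⟨mem_univ _, rfl⟩
  rw [Finset.card_erase_of_mem hmem, card_line] at h1
  have h2 := Finset.card_filter_add_card_filter_not (s := LL) (fun x => icpt x.1 p = x.2)
  unfold pdeg
  omega

end Bruen

open Bruen in
/-- **Bruen's theorem, dual affine form**: at most `n + t` lines (`t² < n`) covering all points of
the affine plane of order `n` contain all lines through a point or all lines of a direction. -/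
theorem bruen_aux {F : Type} [Field F] [Fintype F] [DecidableEq F] {LL : Finset (Line F)} {t : ℕ}
    (hcard : LL.card ≤ Fintype.card F + t) (ht : t ^ 2 < Fintype.card F)
    (hcov : ∀ p : Pt F, ∃ x ∈ LL, On p x) :
    (∃ v : Pt F, ∀ d : Option F, (d, icpt d v) ∈ LL) ∨
      (∃ d : Option F, ∀ c : F, (d, c) ∈ LL) := by
  by_contra hcon
  push Not at hcon
  obtain ⟨hp, hd⟩ := hcon
  have hcov' : ∀ p : Pt F, ∃ x ∈ LL, icpt x.1 p = x.2 := hcov
  have hP : ∀ p : Pt F, pdeg LL p + Fintype.card F ≤ LL.card + 1 := by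
    intro p
    obtain ⟨d, h⟩ := hp p
    exact pdeg_le hcov' h
  have hD : ∀ d : Option F, ddeg LL d + Fintype.card F ≤ LL.card := by
    intro d
    obtain ⟨c, h⟩ := hd d
    exact ddeg_le hcov' h
  have hP1 : ∀ p : Pt F, 1 ≤ pdeg LL p := by
    intro p
    obtain ⟨x, hx, hx'⟩ := hcov' p
    exact Finset.card_pos.2 ⟨x, mem_filter.2 ⟨hx, hx'⟩⟩
  have e1 := sum_pdeg LL
  have e2 := sum_ddeg LL
  have e3 := sum_sq LL
  have f1 : ∑ p, (pdeg LL p : ℤ) = (Fintype.card F : ℤ) * (LL.card : ℤ) := by exact_mod_cast e1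
  have f2 : ∑ d, (ddeg LL d : ℤ) = (LL.card : ℤ) := by exact_mod_cast e2
  have f3 : ∑ p, (pdeg LL p : ℤ) ^ 2 + ∑ d, (ddeg LL d : ℤ) ^ 2 =
      (Fintype.card F : ℤ) * (LL.card : ℤ) + (LL.card : ℤ) ^ 2 := by
    exact_mod_cast e3
  have f4 : (t : ℤ) ^ 2 < (Fintype.card F : ℤ) := by exact_mod_cast ht
  have f5 : (LL.card : ℤ) ≤ Fintype.card F + t := by exact_mod_cast hcard
  obtain ⟨n, hn⟩ : ∃ n : ℤ, (Fintype.card F : ℤ) = n := ⟨_, rfl⟩
  obtain ⟨N, hN⟩ : ∃ N : ℤ, (LL.card : ℤ) = N := ⟨_, rfl⟩
  have hn0 : 0 < n := by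
    rw [← hn]
    exact_mod_cast Fintype.card_pos
  rw [hn, hN] at f1 f3 f5
  rw [hN] at f2
  rw [hn] at f4
  have hnN : n ≤ N := by
    have := hD none
    omega
  have g1 : ∑ p, ((pdeg LL p : ℤ) - 1) * ((pdeg LL p : ℤ) - (N - n + 1)) ≤ 0 := by
    refine Finset.sum_nonpos fun p _ => ?_
    have h1 : (1 : ℤ) ≤ pdeg LL p := by exact_mod_cast hP1 p
    have h2 := hP p
    have h3 : (pdeg LL p : ℤ) ≤ N - n + 1 := by omega
    exact mul_nonpos_of_nonneg_of_nonpos (by linarith) (by linarith)
  have g2 : ∑ d, (ddeg LL d : ℤ) * ((ddeg LL d : ℤ) - (N - n)) ≤ 0 := by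
    refine Finset.sum_nonpos fun d _ => ?_
    have h2 := hD d
    have h3 : (ddeg LL d : ℤ) ≤ N - n := by omega
    exact mul_nonpos_of_nonneg_of_nonpos (by positivity) (by linarith)
  have c1 : ∑ _p : Pt F, (1 : ℤ) = n ^ 2 := by
    rw [Finset.sum_const, Finset.card_univ, Fintype.card_fun, Fintype.card_fin]
    rw [← hn]
    simp
  have k1 : ∑ p, ((pdeg LL p : ℤ) - 1) * ((pdeg LL p : ℤ) - (N - n + 1)) =
      ∑ p, (pdeg LL p : ℤ) ^ 2 - (N - n + 2) * ∑ p, (pdeg LL p : ℤ) +
        (N - n + 1) * ∑ _p : Pt F, (1 : ℤ) := by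
    rw [Finset.mul_sum, Finset.mul_sum, ← Finset.sum_sub_distrib, ← Finset.sum_add_distrib]
    refine Finset.sum_congr rfl fun p _ => ?_
    ring
  have k2 : ∑ d, (ddeg LL d : ℤ) * ((ddeg LL d : ℤ) - (N - n)) =
      ∑ d, (ddeg LL d : ℤ) ^ 2 - (N - n) * ∑ d, (ddeg LL d : ℤ) := by
    rw [Finset.mul_sum, ← Finset.sum_sub_distrib]
    refine Finset.sum_congr rfl fun d _ => ?_
    ring
  rw [k1, c1, f1] at g1
  rw [k2, f2] at g2
  have hkey : n * (n - (N - n) ^ 2) ≤ 0 := by
    have : n * (n - (N - n) ^ 2) = (∑ p, (pdeg LL p : ℤ) ^ 2 + ∑ d, (ddeg LL d : ℤ) ^ 2)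
        - (N - n + 2) * (n * N) + (N - n + 1) * n ^ 2 - (N - n) * N := by
      rw [f3]
      ring
    rw [this]
    linarith
  have hs : (N - n) ^ 2 < n := by
    have h1 : N - n ≤ t := by linarith
    have h2 : (N - n) ^ 2 ≤ (t : ℤ) ^ 2 := pow_le_pow_left₀ (by linarith) h1 2
    linarith
  have : 0 < n * (n - (N - n) ^ 2) := mul_pos hn0 (by linarith)
  linarith

end P045.LS
end

section
/-!
# P045, section 2: labels by Hall's theorem, and the local lemma
-/

namespace P045.LS

open Finset

/-- Hall's theorem with degree bounds. -/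
theorem hall_deg {ι α : Type*} [Fintype ι] [DecidableEq ι] [DecidableEq α]
    (N : ι → Finset α) (K : ℕ) (hK : 0 < K) (h1 : ∀ d, K ≤ (N d).card)
    (h2 : ∀ p, (univ.filter (fun d => p ∈ N d)).card ≤ K) :
    ∃ f : ι → α, Function.Injective f ∧ ∀ d, f d ∈ N d := by
  rw [← Finset.all_card_le_biUnion_card_iff_exists_injective]
  intro s
  have key : s.card * K ≤ (s.biUnion N).card * K := by
    refine Finset.card_mul_le_card_mul (fun d p => p ∈ N d) ?_ ?_
    · intro d hd
      refine (h1 d).trans (Finset.card_le_card ?_)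
      intro p hp
      rw [Finset.mem_bipartiteAbove]
      exact ⟨Finset.mem_biUnion.2 ⟨d, hd, hp⟩, hp⟩
    · intro p hp
      refine (Finset.card_le_card ?_).trans (h2 p)
      intro d hd
      rw [Finset.mem_bipartiteBelow] at hd
      exact Finset.mem_filter.2 ⟨Finset.mem_univ _, hd.2⟩
  exact Nat.le_of_mul_le_mul_right key hK

/-- Labels: a finite family of sets `pts x`, each with at least `K` points, each point in at most
two of them.  If `2 (T+1) |Lab| ≤ K` there is a labelling of the points such that every label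
occurs at least `T+1` times on every set `pts x`. -/
theorem exists_labels {X α Lab : Type*} [Fintype X] [DecidableEq X] [DecidableEq α]
    [Fintype Lab] [DecidableEq Lab] [Nonempty Lab]
    (pts : X → Finset α) (K T : ℕ) (hK : 2 * (T + 1) * Fintype.card Lab ≤ K)
    (h1 : ∀ x, K ≤ (pts x).card) (h2 : ∀ p, (univ.filter (fun x => p ∈ pts x)).card ≤ 2) :
    ∃ S : α → Lab, ∀ (x : X) (L : Lab), T + 1 ≤ ((pts x).filter (fun p => S p = L)).card := by
  classical
  have hpos : 0 < Fintype.card Lab := Fintype.card_pos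
  have hKpos : 0 < K := lt_of_lt_of_le (by positivity) hK
  obtain ⟨f, hinj, hf⟩ := hall_deg (ι := X × Lab × Fin (T + 1)) (fun d => pts d.1) K hKpos
    (fun d => h1 d.1) (by
      intro p
      have : (univ.filter (fun d : X × Lab × Fin (T + 1) => p ∈ pts d.1)) =
          (univ.filter (fun x => p ∈ pts x)) ×ˢ (univ : Finset (Lab × Fin (T + 1))) := by
        ext d
        simp
      rw [this, Finset.card_product, Finset.card_univ, Fintype.card_prod, Fintype.card_fin]
      refine le_trans ?_ hK
      calc _ ≤ 2 * (Fintype.card Lab * (T + 1)) := Nat.mul_le_mul_right _ (h2 p)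
        _ = _ := by ring)
  refine ⟨fun p => if h : ∃ d, f d = p then (h.choose).2.1 else Classical.arbitrary Lab, ?_⟩
  intro x L
  have hS : ∀ d, (if h : ∃ d', f d' = f d then (h.choose).2.1 else Classical.arbitrary Lab)
      = d.2.1 := by
    intro d
    have h : ∃ d', f d' = f d := ⟨d, rfl⟩
    rw [dif_pos h, hinj h.choose_spec]
  have hinj2 : Function.Injective (fun l : Fin (T + 1) => f (x, L, l)) := by
    intro l l' h
    have := hinj h
    simpa using this
  calc T + 1 = (univ.image (fun l : Fin (T + 1) => f (x, L, l))).card := by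
        rw [Finset.card_image_of_injective _ hinj2, Finset.card_univ, Fintype.card_fin]
    _ ≤ _ := by
        refine Finset.card_le_card ?_
        intro p hp
        obtain ⟨l, -, rfl⟩ := Finset.mem_image.1 hp
        refine Finset.mem_filter.2 ⟨hf (x, L, l), hS (x, L, l)⟩

/-- numerical inequality of the local lemma -/
theorem choose_gt (s j : ℕ) (hs : 2 ≤ s) : 2 * j < (s + j).choose s := by
  have h1 : (2 + j).choose 2 ≤ (s + j).choose s := by
    induction s, hs using Nat.le_induction with
    | base => exact le_rfl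
    | succ s hs ih =>
      refine ih.trans ?_
      rw [show s + 1 + j = (s + j) + 1 by ring, Nat.choose_succ_succ]
      exact Nat.le_add_right _ _
  refine lt_of_lt_of_le ?_ h1
  rw [Nat.choose_two_right]
  have : 2 * j + 1 ≤ (2 + j) * (2 + j - 1) / 2 := by
    rw [Nat.le_div_iff_mul_le (by norm_num), show 2 + j - 1 = j + 1 by omega]
    nlinarith [Nat.le_mul_self j]
  omega

/-- The local lemma: `s` blocks on a split line do not cover all labels.  `A` is the set of colours
used, `H` the set of halves used; a half contains at most the two labels `S` and `Sᶜ`. -/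
theorem local_label {β : Type*} [DecidableEq β] {s : ℕ} (hs : 2 ≤ s)
    (cls : Finset (Fin (2 * s)) → β)
    (hcls : ∀ S S', cls S = cls S' → S = S' ∨ S = S'ᶜ)
    (A : Finset (Fin (2 * s))) (H : Finset β) (hAH : A.card + H.card ≤ s) :
    ∃ S : Finset (Fin (2 * s)), S.card = s ∧ Disjoint S A ∧ cls S ∉ H := by
  by_contra hcon
  push Not at hcon
  have h1 : (Finset.powersetCard s Aᶜ).card ≤ 2 * H.card := by
    refine Finset.card_le_mul_card_image_of_maps_to (f := cls) ?_ 2 ?_
    · intro S hS
      rw [Finset.mem_powersetCard] at hS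
      exact hcon S hS.2 (Finset.disjoint_left.2 fun a ha => Finset.mem_compl.1 (hS.1 ha))
    · intro b _
      by_cases hne : ((Finset.powersetCard s Aᶜ).filter (fun S => cls S = b)).Nonempty
      · obtain ⟨S0, hS0⟩ := hne
        have hb : cls S0 = b := (Finset.mem_filter.1 hS0).2
        refine (Finset.card_le_card (t := {S0, S0ᶜ}) ?_).trans Finset.card_le_two
        intro S hS
        have := (Finset.mem_filter.1 hS).2
        rcases hcls S S0 (this.trans hb.symm) with h | h <;> simp [h]
      · rw [Finset.not_nonempty_iff_eq_empty.1 hne]; simp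
  rw [Finset.card_powersetCard, Finset.card_compl, Fintype.card_fin] at h1
  have h2 := choose_gt s (s - A.card) hs
  have h3 : s + (s - A.card) = 2 * s - A.card := by omega
  rw [h3] at h2
  omega

end P045.LS
end

section
/-!
# P045, sections 3 and 4: from split lines and labels to the hypergraph
-/

namespace P045.LS

open Finset

/-- size of the label of a line (0 if the line is not split) -/
def ext {I : Type} (s : I → ℕ) : Option (I × Bool) → ℕ
  | none => 0
  | some ib => s ib.1

/-- Split lines and labels.  `typ x` is the class of the line `x` (`none` if it is not split),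
`xl i b p` is a line of class `(i, b)` through `p`, `S i p` is the label of `xl i false p` at `p`
(the label of `xl i true p` is the complement). -/
structure Split (F : Type) [Field F] [Fintype F] [DecidableEq F] (I : Type) [Fintype I]
    (s : I → ℕ) where
  Om : Finset (Pt F)
  typ : Line F → Option (I × Bool)
  xl : I → Bool → Pt F → Line F
  S : (i : I) → Pt F → Finset (Fin (2 * s i))
  hs : ∀ i, 2 ≤ s i
  xl_on : ∀ i b p, On p (xl i b p)
  xl_typ : ∀ i b p, typ (xl i b p) = some (i, b)
  uniq : ∀ i b, ∀ p ∈ Om, ∀ x, On p x → typ x = some (i, b) → x = xl i b p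
  cardS : ∀ i, ∀ p ∈ Om, (S i p).card = s i
  rich : ∀ x i b, typ x = some (i, b) → ∀ L : Finset (Fin (2 * s i)), L.card = s i →
    (∑ i, 2 * s i) + 1 ≤ (Om.filter (fun p => On p x ∧ S i p = L)).card
  dir : ∀ d : Option F, (∑ i, 2 * s i) < ∑ c : F, ext s (typ (d, c))

namespace Split

variable {F : Type} [Field F] [Fintype F] [DecidableEq F] {I : Type} [Fintype I]
  {s : I → ℕ}

/-- the parts -/
abbrev Part (F : Type) {I : Type} (s : I → ℕ) : Type := Option F ⊕ (Σ i, Fin (2 * s i))

/-- the names of the blocks -/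
abbrev Blk (F : Type) {I : Type} (s : I → ℕ) : Type :=
  Line F × Option (Σ i, Finset (Finset (Fin (2 * s i))))

/-- the partitions -/
def fn (D : Split F I s) : Part F s → {p // p ∈ D.Om} → Blk F s
  | Sum.inl d, p => ((d, icpt d p.1), (D.typ (d, icpt d p.1)).map fun ib =>
      (⟨ib.1, {D.S ib.1 p.1, (D.S ib.1 p.1)ᶜ}⟩ : Σ i, Finset (Finset (Fin (2 * s i)))))
  | Sum.inr a, p => (if a.2 ∈ D.S a.1 p.1 then D.xl a.1 false p.1 else D.xl a.1 true p.1, none)

lemma fn_on (D : Split F I s) (k : Part F s) (p : {p // p ∈ D.Om}) : On p.1 (D.fn k p).1 := by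
  rcases k with d | a
  · rfl
  · show On p.1 (if a.2 ∈ D.S a.1 p.1 then D.xl a.1 false p.1 else D.xl a.1 true p.1)
    split_ifs
    · exact D.xl_on _ _ _
    · exact D.xl_on _ _ _

omit [Fintype F] [DecidableEq F] in
/-- two points are joined by a line -/
lemma exists_dir (p q : Pt F) : ∃ d : Option F, icpt d p = icpt d q := by
  by_cases h : p 0 = q 0
  · exact ⟨none, h⟩
  · have h' : q 0 - p 0 ≠ 0 := sub_ne_zero.2 fun e => h e.symm
    refine ⟨some ((q 1 - p 1) / (q 0 - p 0)), ?_⟩
    simp only [icpt]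
    field_simp
    ring

/-- two `s`-subsets of a `2s`-set which are not complementary meet, and their complements meet -/
lemma exists_common {m : ℕ} {A B : Finset (Fin (2 * m))} (hA : A.card = m) (hB : B.card = m)
    (h : B ≠ Aᶜ) : ∃ a, a ∈ A ∧ a ∈ B := by
  by_contra hcon
  push Not at hcon
  apply h
  refine Finset.eq_of_subset_of_card_le ?_ ?_
  · intro a ha
    rw [Finset.mem_compl]
    exact fun h' => hcon a h' ha
  · rw [Finset.card_compl, Fintype.card_fin, hA, hB]
    omega

lemma exists_common' {m : ℕ} {A B : Finset (Fin (2 * m))} (hA : A.card = m) (hB : B.card = m)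
    (h : B ≠ Aᶜ) : ∃ a, a ∉ A ∧ a ∉ B := by
  have hA' : (Aᶜ).card = m := by rw [Finset.card_compl, Fintype.card_fin, hA]; omega
  have hB' : (Bᶜ).card = m := by rw [Finset.card_compl, Fintype.card_fin, hB]; omega
  obtain ⟨a, h1, h2⟩ := exists_common hA' hB' (by
    intro e
    apply h
    rw [← compl_compl B, e, compl_compl])
  exact ⟨a, Finset.mem_compl.1 h1, Finset.mem_compl.1 h2⟩

/-- any two points are together in some block -/
lemma intersecting (D : Split F I s) (w w' : {p // p ∈ D.Om}) :
    ∃ k, D.fn k w = D.fn k w' := by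
  obtain ⟨d, hd⟩ := exists_dir w.1 w'.1
  rcases ht : D.typ (d, icpt d w.1) with _ | ⟨i, b⟩
  · refine ⟨Sum.inl d, ?_⟩
    simp only [fn]
    rw [← hd]
    rw [ht]
    rfl
  · have h1 := D.cardS i w.1 w.2
    have h2 := D.cardS i w'.1 w'.2
    by_cases h : D.S i w'.1 = (D.S i w.1)ᶜ
    · refine ⟨Sum.inl d, ?_⟩
      simp only [fn]
      rw [← hd, ht]
      simp only [Option.map_some]
      rw [h, compl_compl, Finset.pair_comm]
    · have e1 := D.uniq i b w.1 w.2 _ (show On w.1 (d, icpt d w.1) from rfl) ht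
      have e2 := D.uniq i b w'.1 w'.2 (d, icpt d w.1) (show icpt d w'.1 = icpt d w.1 from hd.symm)
        ht
      have e3 : D.xl i b w.1 = D.xl i b w'.1 := e1.symm.trans e2
      cases b with
      | false =>
        obtain ⟨a, ha, ha'⟩ := exists_common h1 h2 h
        refine ⟨Sum.inr ⟨i, a⟩, ?_⟩
        simp only [fn]
        rw [if_pos ha, if_pos ha', e3]
      | true =>
        obtain ⟨a, ha, ha'⟩ := exists_common' h1 h2 h
        refine ⟨Sum.inr ⟨i, a⟩, ?_⟩
        simp only [fn]
        rw [if_neg ha, if_neg ha', e3]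

/-- The line lemma: a split line of the cover on which at most `T` points are on other lines of the
cover carries at least `s + 1` blocks. -/
lemma line_lemma (D : Split F I s) (C : Finset (Part F s × Blk F s))
    (hC : ∀ w, ∃ k, (k, D.fn k w) ∈ C) {x : Line F} {i : I} {b : Bool}
    (hx : D.typ x = some (i, b))
    (hbad : (univ.filter (fun p : Pt F => On p x ∧ ∃ z ∈ C, z.2.1 ≠ x ∧ On p z.2.1)).card
      ≤ ∑ i, 2 * s i) :
    s i + 1 ≤ (C.filter (fun z => z.2.1 = x)).card := by
  classical
  by_contra hcon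
  have hle : (C.filter (fun z => z.2.1 = x)).card ≤ s i := by omega
  let A : Finset (Fin (2 * s i)) := univ.filter fun a => (Sum.inr ⟨i, a⟩, (x, none)) ∈ C
  let H : Finset (Option (Σ i, Finset (Finset (Fin (2 * s i))))) :=
    (C.filter (fun z => z.2.1 = x ∧ z.1 = Sum.inl x.1)).image fun z => z.2.2
  have hA : A.card ≤ (C.filter (fun z => z.2.1 = x ∧ ¬ z.1 = Sum.inl x.1)).card := by
    refine Finset.card_le_card_of_injOn
      (fun a => ((Sum.inr ⟨i, a⟩, (x, none)) : Part F s × Blk F s)) ?_ ?_
    · intro a ha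
      have := (Finset.mem_filter.1 ha).2
      exact Finset.mem_filter.2 ⟨this, rfl, by simp⟩
    · intro a _ a' _ h
      simpa using h
  have hAH : A.card + H.card ≤ s i := by
    refine (Nat.add_le_add hA Finset.card_image_le).trans ?_
    refine le_trans (le_of_eq ?_) hle
    have h1 := Finset.card_filter_add_card_filter_not (s := C.filter (fun z => z.2.1 = x))
      (fun z => z.1 = Sum.inl x.1)
    rw [Finset.filter_filter, Finset.filter_filter] at h1
    omega
  obtain ⟨L, hL, hLA, hLH⟩ := local_label (D.hs i)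
    (fun S => some (⟨i, {S, Sᶜ}⟩ : Σ i, Finset (Finset (Fin (2 * s i))))) (by
      intro S S' h
      have h1 : ({S, Sᶜ} : Finset (Finset (Fin (2 * s i)))) = {S', S'ᶜ} := by
        have h2 := Option.some.inj h
        exact eq_of_heq (Sigma.mk.inj h2).2
      have h3 : S ∈ ({S', S'ᶜ} : Finset (Finset (Fin (2 * s i)))) := by
        rw [← h1]; exact Finset.mem_insert_self _ _
      simpa using h3) A H hAH
  -- the label wanted
  obtain ⟨L0, hL0, hL0L⟩ : ∃ L0 : Finset (Fin (2 * s i)), L0.card = s i ∧
      ((b = false ∧ L0 = L) ∨ (b = true ∧ L0 = Lᶜ)) := by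
    cases b with
    | false => exact ⟨L, hL, Or.inl ⟨rfl, rfl⟩⟩
    | true =>
      refine ⟨Lᶜ, ?_, Or.inr ⟨rfl, rfl⟩⟩
      rw [Finset.card_compl, Fintype.card_fin, hL]; omega
  have hrich := D.rich x i b hx L0 hL0
  obtain ⟨p, hp, hpbad⟩ : ∃ p ∈ D.Om.filter (fun p => On p x ∧ D.S i p = L0),
      p ∉ univ.filter (fun p : Pt F => On p x ∧ ∃ z ∈ C, z.2.1 ≠ x ∧ On p z.2.1) := by
    by_contra h
    push Not at h
    have := Finset.card_le_card (show D.Om.filter (fun p => On p x ∧ D.S i p = L0) ⊆
      univ.filter (fun p : Pt F => On p x ∧ ∃ z ∈ C, z.2.1 ≠ x ∧ On p z.2.1) from h)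
    omega
  obtain ⟨hpO, hpx, hpS⟩ := Finset.mem_filter.1 hp
  obtain ⟨k, hk⟩ := hC ⟨p, hpO⟩
  have hkx : (D.fn k ⟨p, hpO⟩).1 = x := by
    by_contra hne
    exact hpbad (Finset.mem_filter.2 ⟨Finset.mem_univ _, hpx, _, hk, hne, D.fn_on k ⟨p, hpO⟩⟩)
  rcases k with d | ⟨j, a⟩
  · -- a half
    have hdx : (d, icpt d p) = x := hkx
    apply hLH
    refine Finset.mem_image.2 ⟨_, Finset.mem_filter.2 ⟨hk, hkx, ?_⟩, ?_⟩
    · rw [← hdx]
    · show (D.typ (d, icpt d p)).map _ = _
      rw [hdx, hx]
      simp only [Option.map_some]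
      rw [hpS]
      rcases hL0L with ⟨-, h⟩ | ⟨-, h⟩
      · rw [h]
      · rw [h, compl_compl, Finset.pair_comm]
  · -- a colour
    by_cases ha : a ∈ D.S j p
    · have hxl : D.xl j false p = x := by
        have : (if a ∈ D.S j p then D.xl j false p else D.xl j true p) = x := hkx
        rwa [if_pos ha] at this
      have h1 : some (j, false) = some (i, b) := by
        rw [← D.xl_typ j false p, hxl, hx]
      have h2 := Option.some.inj h1
      obtain ⟨rfl, rfl⟩ := Prod.mk.inj h2
      rcases hL0L with ⟨-, h⟩ | ⟨h, -⟩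
      · have haL : a ∈ L := by rw [← h, ← hpS]; exact ha
        refine Finset.disjoint_left.1 hLA haL (Finset.mem_filter.2 ⟨Finset.mem_univ _, ?_⟩)
        have : D.fn (Sum.inr ⟨j, a⟩) ⟨p, hpO⟩ = (x, none) := by
          simp only [fn]
          rw [if_pos ha, hxl]
        rw [← this]
        exact hk
      · exact absurd h (by simp)
    · have hxl : D.xl j true p = x := by
        have : (if a ∈ D.S j p then D.xl j false p else D.xl j true p) = x := hkx
        rwa [if_neg ha] at this
      have h1 : some (j, true) = some (i, b) := by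
        rw [← D.xl_typ j true p, hxl, hx]
      have h2 := Option.some.inj h1
      obtain ⟨rfl, rfl⟩ := Prod.mk.inj h2
      rcases hL0L with ⟨h, -⟩ | ⟨-, h⟩
      · exact absurd h (by simp)
      · have haL : a ∈ L := by
          by_contra h'
          exact ha (by rw [hpS, h]; exact Finset.mem_compl.2 h')
        refine Finset.disjoint_left.1 hLA haL (Finset.mem_filter.2 ⟨Finset.mem_univ _, ?_⟩)
        have : D.fn (Sum.inr ⟨j, a⟩) ⟨p, hpO⟩ = (x, none) := by
          simp only [fn]
          rw [if_neg ha, hxl]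
        rw [← this]
        exact hk

/-- few points of a line are on lines of other directions -/
lemma card_bad_le (x : Line F) (M : Finset (Line F)) (hM : ∀ y ∈ M, y.1 ≠ x.1) :
    (univ.filter (fun p : Pt F => On p x ∧ ∃ y ∈ M, On p y)).card ≤ M.card := by
  have h1 : (univ.filter (fun p : Pt F => On p x ∧ ∃ y ∈ M, On p y)) ⊆
      M.biUnion fun y => univ.filter fun p : Pt F => icpt x.1 p = x.2 ∧ icpt y.1 p = y.2 := by
    intro p hp
    obtain ⟨-, hpx, y, hy, hpy⟩ := Finset.mem_filter.1 hp
    exact Finset.mem_biUnion.2 ⟨y, hy, Finset.mem_filter.2 ⟨Finset.mem_univ _, hpx, hpy⟩⟩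
  refine (Finset.card_le_card h1).trans (Finset.card_biUnion_le.trans ?_)
  rw [Finset.card_eq_sum_ones]
  refine Finset.sum_le_sum fun y hy => ?_
  rw [Bruen.card_inter (hM y hy).symm]

omit [Field F] [Fintype F] [Fintype I] in
/-- counting blocks over an injective family of lines -/
lemma sum_blocks_le {J : Type} [Fintype J] (C : Finset (Part F s × Blk F s)) (y : J → Line F)
    (hy : Function.Injective y) :
    ∑ j, (C.filter (fun z => z.2.1 = y j)).card ≤ C.card := by
  classical
  rw [← Finset.card_biUnion]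
  · refine Finset.card_le_card ?_
    intro z hz
    obtain ⟨j, -, hj⟩ := Finset.mem_biUnion.1 hz
    exact (Finset.mem_filter.1 hj).1
  · intro i _ j _ hij
    rw [Function.onFun, Finset.disjoint_left]
    intro z hz hz'
    exact hij (hy ((Finset.mem_filter.1 hz).2.symm.trans (Finset.mem_filter.1 hz').2))

/-- On every point the classes contribute the full sum of label sizes. -/
lemma sum_ext_pencil (D : Split F I s) (v : Pt F) :
    ∑ i, 2 * s i ≤ ∑ d : Option F, ext s (D.typ (d, icpt d v)) := by
  classical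
  have hx : ∀ i b, D.xl i b v = ((D.xl i b v).1, icpt (D.xl i b v).1 v) := by
    intro i b
    have := D.xl_on i b v
    exact Prod.ext rfl this.symm
  have hinj : Function.Injective (fun ib : I × Bool => (D.xl ib.1 ib.2 v).1) := by
    rintro ⟨i, b⟩ ⟨j, c⟩ h
    have h' : D.xl i b v = D.xl j c v := by
      rw [hx i b, hx j c]
      have h2 : (D.xl i b v).1 = (D.xl j c v).1 := h
      rw [h2]
    have h1 : some (i, b) = some (j, c) := by
      rw [← D.xl_typ i b v, h', D.xl_typ]
    exact Option.some.inj h1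
  have h1 : ∑ i, 2 * s i = ∑ ib : I × Bool, s ib.1 := by
    rw [Fintype.sum_prod_type]
    refine Finset.sum_congr rfl fun i _ => ?_
    simp
  have h2 : ∑ ib : I × Bool, s ib.1 =
      ∑ ib : I × Bool, ext s (D.typ ((D.xl ib.1 ib.2 v).1, icpt (D.xl ib.1 ib.2 v).1 v)) := by
    refine Finset.sum_congr rfl fun ib _ => ?_
    rw [← hx ib.1 ib.2, D.xl_typ]
    rfl
  rw [h1, h2]
  rw [← Finset.sum_image (s := univ) (g := fun ib : I × Bool => (D.xl ib.1 ib.2 v).1)
    (f := fun d => ext s (D.typ (d, icpt d v))) (fun a _ b _ h => hinj h)]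
  exact Finset.sum_le_sum_of_subset (Finset.subset_univ _)

/-- **Section 4.** A cover needs at least `n + 1 + T` blocks. -/
theorem cover_le (D : Split F I s) (hT : (∑ i, 2 * s i) ^ 2 < Fintype.card F)
    (hrig : ∀ L : Finset (Line F), L.card ≤ Fintype.card F + ∑ i, 2 * s i →
      (∀ p ∈ D.Om, ∃ x ∈ L, On p x) → ∀ p, ∃ x ∈ L, On p x)
    (C : Finset (Part F s × Blk F s)) (hC : ∀ w, ∃ k, (k, D.fn k w) ∈ C) :
    Fintype.card F + 1 + ∑ i, 2 * s i ≤ C.card := by
  classical
  by_contra hcon
  have hCn : C.card ≤ Fintype.card F + ∑ i, 2 * s i := by omega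
  let L : Finset (Line F) := C.image fun z => z.2.1
  have hLn : L.card ≤ Fintype.card F + ∑ i, 2 * s i := Finset.card_image_le.trans hCn
  have hLcov : ∀ p ∈ D.Om, ∃ x ∈ L, On p x := by
    intro p hp
    obtain ⟨k, hk⟩ := hC ⟨p, hp⟩
    exact ⟨_, Finset.mem_image.2 ⟨_, hk, rfl⟩, D.fn_on k ⟨p, hp⟩⟩
  have hall := hrig L hLn hLcov
  have hpos : ∀ x ∈ L, 1 ≤ (C.filter (fun z => z.2.1 = x)).card := by
    intro x hx
    obtain ⟨z, hz, hzx⟩ := Finset.mem_image.1 hx
    exact Finset.card_pos.2 ⟨z, Finset.mem_filter.2 ⟨hz, hzx⟩⟩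
  -- the line lemma for a line with few bad points
  have hline : ∀ x ∈ L, (univ.filter (fun p : Pt F => On p x ∧ ∃ z ∈ C, z.2.1 ≠ x ∧
      On p z.2.1)).card ≤ ∑ i, 2 * s i →
      1 + ext s (D.typ x) ≤ (C.filter (fun z => z.2.1 = x)).card := by
    intro x hx hbad
    rcases ht : D.typ x with _ | ⟨i, b⟩
    · exact hpos x hx
    · have := D.line_lemma C hC ht hbad
      show 1 + s i ≤ _
      omega
  rcases bruen_aux hLn hT hall with ⟨v, hv⟩ | ⟨d, hd⟩
  · -- a pencil
    have hinj : Function.Injective (fun d : Option F => ((d, icpt d v) : Line F)) := by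
      intro d d' h
      exact (Prod.mk.inj h).1
    have hpen : (univ.image fun d : Option F => ((d, icpt d v) : Line F)).card =
        Fintype.card F + 1 := by
      rw [Finset.card_image_of_injective _ hinj, Finset.card_univ, Fintype.card_option]
    have hM : (L \ (univ.image fun d : Option F => ((d, icpt d v) : Line F))).card + 1 ≤
        ∑ i, 2 * s i := by
      have hsub : (univ.image fun d : Option F => ((d, icpt d v) : Line F)) ⊆ L := by
        intro x hx
        obtain ⟨d, -, rfl⟩ := Finset.mem_image.1 hx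
        exact hv d
      have := Finset.card_sdiff_add_card_eq_card hsub
      have hsub2 := Finset.card_le_card hsub
      by_cases hT0 : Fintype.card F + 1 ≤ Fintype.card F + ∑ i, 2 * s i
      · omega
      · omega
    have hcount : ∀ d : Option F, 1 + ext s (D.typ (d, icpt d v)) ≤
        (C.filter (fun z => z.2.1 = (d, icpt d v))).card := by
      intro d
      refine hline _ (hv d) ?_
      set M := (L \ (univ.image fun d : Option F => ((d, icpt d v) : Line F))).filter
        (fun y => y.1 ≠ d) with hMdef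
      have hsub : (univ.filter (fun p : Pt F => On p (d, icpt d v) ∧ ∃ z ∈ C,
          z.2.1 ≠ (d, icpt d v) ∧ On p z.2.1)) ⊆
          insert v (univ.filter (fun p : Pt F => On p (d, icpt d v) ∧ ∃ y ∈ M, On p y)) := by
        intro p hp
        obtain ⟨-, hpx, z, hz, hzx, hpz⟩ := Finset.mem_filter.1 hp
        by_cases hpv : p = v
        · rw [hpv]; exact Finset.mem_insert_self _ _
        · refine Finset.mem_insert_of_mem (Finset.mem_filter.2 ⟨Finset.mem_univ _, hpx, z.2.1, ?_,
            hpz⟩)
          have hne : z.2.1.1 ≠ d := by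
            intro e
            apply hzx
            refine Prod.ext e ?_
            have h1 : icpt z.2.1.1 p = z.2.1.2 := hpz
            have h2 : icpt d p = icpt d v := hpx
            rw [← h1, e, h2]
          refine Finset.mem_filter.2 ⟨Finset.mem_sdiff.2 ⟨Finset.mem_image.2 ⟨z, hz, rfl⟩, ?_⟩, hne⟩
          intro hmem
          obtain ⟨d', -, hd'⟩ := Finset.mem_image.1 hmem
          apply hpv
          have h1 : icpt z.2.1.1 p = z.2.1.2 := hpz
          have h2 : icpt d p = icpt d v := hpx
          rw [← hd'] at h1 hne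
          exact Bruen.eq_of_icpt hne h1 h2
      refine (Finset.card_le_card hsub).trans ((Finset.card_insert_le _ _).trans ?_)
      refine le_trans (Nat.add_le_add_right (card_bad_le (d, icpt d v) M ?_) 1) ?_
      · intro y hy
        exact (Finset.mem_filter.1 hy).2
      · exact (Nat.add_le_add_right (Finset.card_filter_le _ _) 1).trans hM
    have h1 := sum_blocks_le C (fun d : Option F => ((d, icpt d v) : Line F)) hinj
    have h2 := Finset.sum_le_sum fun d (_ : d ∈ (univ : Finset (Option F))) => hcount d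
    rw [Finset.sum_add_distrib, Finset.sum_const, Finset.card_univ, Fintype.card_option] at h2
    have h3 := D.sum_ext_pencil v
    simp only [smul_eq_mul, mul_one] at h2
    omega
  · -- a parallel class
    have hinj : Function.Injective (fun c : F => ((d, c) : Line F)) := by
      intro c c' h
      exact (Prod.mk.inj h).2
    have hpen : (univ.image fun c : F => ((d, c) : Line F)).card = Fintype.card F := by
      rw [Finset.card_image_of_injective _ hinj, Finset.card_univ]
    have hcount : ∀ c : F, 1 + ext s (D.typ (d, c)) ≤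
        (C.filter (fun z => z.2.1 = (d, c))).card := by
      intro c
      refine hline _ (hd c) ?_
      set M := L.filter (fun y => y.1 ≠ d) with hMdef
      have hMc : M.card ≤ ∑ i, 2 * s i := by
        have hsub : (univ.image fun c : F => ((d, c) : Line F)) ⊆ L := by
          intro x hx
          obtain ⟨c, -, rfl⟩ := Finset.mem_image.1 hx
          exact hd c
        have h1 := Finset.card_sdiff_add_card_eq_card hsub
        have h2 : M ⊆ L \ (univ.image fun c : F => ((d, c) : Line F)) := by
          intro y hy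
          obtain ⟨hy1, hy2⟩ := Finset.mem_filter.1 hy
          refine Finset.mem_sdiff.2 ⟨hy1, fun h => hy2 ?_⟩
          obtain ⟨c, -, rfl⟩ := Finset.mem_image.1 h
          rfl
        have h3 := Finset.card_le_card h2
        omega
      have hsub : (univ.filter (fun p : Pt F => On p (d, c) ∧ ∃ z ∈ C,
          z.2.1 ≠ (d, c) ∧ On p z.2.1)) ⊆
          univ.filter (fun p : Pt F => On p (d, c) ∧ ∃ y ∈ M, On p y) := by
        intro p hp
        obtain ⟨-, hpx, z, hz, hzx, hpz⟩ := Finset.mem_filter.1 hp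
        refine Finset.mem_filter.2 ⟨Finset.mem_univ _, hpx, z.2.1, ?_, hpz⟩
        refine Finset.mem_filter.2 ⟨Finset.mem_image.2 ⟨z, hz, rfl⟩, ?_⟩
        intro e
        apply hzx
        refine Prod.ext e ?_
        have h1 : icpt z.2.1.1 p = z.2.1.2 := hpz
        have h2 : icpt d p = c := hpx
        rw [← h1, e, h2]
      refine (Finset.card_le_card hsub).trans ((card_bad_le (d, c) M ?_).trans hMc)
      intro y hy
      exact (Finset.mem_filter.1 hy).2
    have h1 := sum_blocks_le C (fun c : F => ((d, c) : Line F)) hinj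
    have h2 := Finset.sum_le_sum fun c (_ : c ∈ (univ : Finset F)) => hcount c
    rw [Finset.sum_add_distrib, Finset.sum_const, Finset.card_univ] at h2
    have h3 := D.dir d
    simp only [smul_eq_mul, mul_one] at h2
    omega

/-- **Sections 3 and 4.** -/
theorem dualCE (D : Split F I s) (hT : (∑ i, 2 * s i) ^ 2 < Fintype.card F)
    (hrig : ∀ L : Finset (Line F), L.card ≤ Fintype.card F + ∑ i, 2 * s i →
      (∀ p ∈ D.Om, ∃ x ∈ L, On p x) → ∀ p, ∃ x ∈ L, On p x) :
    DualCE (Fintype.card F + 1 + ∑ i, 2 * s i) := by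
  classical
  refine ⟨Part F s, {p // p ∈ D.Om}, Blk F s, inferInstance, inferInstance, inferInstance,
    inferInstance, inferInstance, inferInstance, D.fn, ?_, ?_, D.intersecting, ?_⟩
  · -- nonempty
    have h1 := D.dir none
    obtain ⟨c, hc⟩ : ∃ c : F, 0 < ext s (D.typ (none, c)) := by
      by_contra h
      push Not at h
      have : ∑ c : F, ext s (D.typ (none, c)) = 0 :=
        Finset.sum_eq_zero fun c _ => Nat.le_zero.1 (h c)
      omega
    rcases ht : D.typ (none, c) with _ | ⟨i, b⟩
    · rw [ht] at hc; exact absurd hc (lt_irrefl _)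
    · obtain ⟨L, hL⟩ : ∃ L : Finset (Fin (2 * s i)), L.card = s i := by
        obtain ⟨L, -, hL⟩ := Finset.exists_subset_card_eq
          (show s i ≤ (univ : Finset (Fin (2 * s i))).card by
            rw [Finset.card_univ, Fintype.card_fin]; omega)
        exact ⟨L, hL⟩
      have h2 := D.rich (none, c) i b ht L hL
      obtain ⟨p, hp⟩ := Finset.card_pos.1 (lt_of_lt_of_le (Nat.succ_pos _) h2)
      exact ⟨⟨p, (Finset.mem_filter.1 hp).1⟩⟩
  · rw [Fintype.card_sum, Fintype.card_option, Fintype.card_sigma]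
    simp
  · intro C hC
    exact D.cover_le hT hrig C hC

end Split

end P045.LS
end

section
/-!
# P045, sections 2-4: the gadget theorem
-/

namespace P045.LS

open Finset

section

variable {F : Type} [Field F] [Fintype F] [DecidableEq F]

omit [Fintype F] in
/-- labels of one pair of classes -/
theorem pair_labels (m : ℕ) (B : Bool → Finset (Line F)) (Ω : Finset (Pt F))
    (huniq : ∀ p ∈ Ω, ∀ b, ∀ x ∈ B b, ∀ y ∈ B b, On p x → On p y → x = y) (T : ℕ)
    (hbig : ∀ b, ∀ x ∈ B b,
      2 * (T + 1) * (2 * m).choose m ≤ (Ω.filter fun p => On p x).card) :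
    ∃ S : Pt F → Finset (Fin (2 * m)), (∀ p, (S p).card = m) ∧
      ∀ b, ∀ x ∈ B b, ∀ L : Finset (Fin (2 * m)), L.card = m →
        T + 1 ≤ (Ω.filter fun p => On p x ∧ S p = L).card := by
  classical
  have hcard : Fintype.card {L : Finset (Fin (2 * m)) // L.card = m} = (2 * m).choose m := by
    rw [Fintype.card_finset_len, Fintype.card_fin]
  have : Nonempty {L : Finset (Fin (2 * m)) // L.card = m} := by
    rw [← Fintype.card_pos_iff, hcard]
    exact Nat.choose_pos (by omega)
  obtain ⟨S, hS⟩ := exists_labels (X := Σ b : Bool, {x // x ∈ B b})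
    (Lab := {L : Finset (Fin (2 * m)) // L.card = m})
    (fun x => Ω.filter fun p => On p x.2.1) (2 * (T + 1) * (2 * m).choose m) T
    (by rw [hcard]) (fun x => hbig x.1 x.2.1 x.2.2) (by
      intro p
      refine le_trans (Finset.card_le_card_of_injOn (t := (univ : Finset Bool))
        (fun x => x.1) (fun _ _ => Finset.mem_univ _) ?_) (by simp)
      rintro ⟨b, x⟩ hx ⟨b', y⟩ hy h
      obtain rfl : b = b' := h
      have h1 := Finset.mem_filter.1 (Finset.mem_filter.1 hx).2
      have h2 := Finset.mem_filter.1 (Finset.mem_filter.1 hy).2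
      have h3 := huniq p h1.1 b x.1 x.2 y.1 y.2 h1.2 h2.2
      have h4 : x = y := Subtype.ext h3
      rw [h4])
  refine ⟨fun p => (S p).1, fun p => (S p).2, ?_⟩
  intro b x hx L hL
  refine (hS ⟨b, ⟨x, hx⟩⟩ ⟨L, hL⟩).trans (Finset.card_le_card ?_)
  intro p hp
  obtain ⟨h1, h2⟩ := Finset.mem_filter.1 hp
  obtain ⟨h3, h4⟩ := Finset.mem_filter.1 h1
  exact Finset.mem_filter.2 ⟨h3, h4, congrArg Subtype.val h2⟩

/-- **The gadget theorem** (sections 2, 3 and 4). -/
theorem gadget' {I : Type} [Fintype I] [DecidableEq I] (s : I → ℕ) (hs : ∀ i, 2 ≤ s i)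
    (B : I → Bool → Finset (Line F)) (Ω : Finset (Pt F))
    (hdisj : ∀ i b j c, (i, b) ≠ (j, c) → Disjoint (B i b) (B j c))
    (hcov : ∀ i b p, ∃ x ∈ B i b, On p x)
    (huniq : ∀ p ∈ Ω, ∀ i b, ∀ x ∈ B i b, ∀ y ∈ B i b, On p x → On p y → x = y)
    (hdir : ∀ d : Option F, (∑ i, 2 * s i) + 1 ≤
      ∑ i, ∑ b, s i * ((B i b).filter fun x => x.1 = d).card)
    (hbig : ∀ i b, ∀ x ∈ B i b, 2 * ((∑ j, 2 * s j) + 1) * (2 * s i).choose (s i) ≤
      (Ω.filter fun p => On p x).card)
    (ht2 : (∑ i, 2 * s i) ^ 2 < Fintype.card F)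
    (hrig : ∀ L : Finset (Line F), L.card ≤ Fintype.card F + ∑ i, 2 * s i →
      (∀ p ∈ Ω, ∃ x ∈ L, On p x) → ∀ p, ∃ x ∈ L, On p x) :
    DualCE (Fintype.card F + 1 + ∑ i, 2 * s i) := by
  classical
  let typ : Line F → Option (I × Bool) := fun x =>
    if h : ∃ ib : I × Bool, x ∈ B ib.1 ib.2 then some h.choose else none
  have htyp : ∀ x i b, typ x = some (i, b) ↔ x ∈ B i b := by
    intro x i b
    constructor
    · intro h
      by_cases h' : ∃ ib : I × Bool, x ∈ B ib.1 ib.2
      · have h1 : typ x = some h'.choose := dif_pos h'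
        rw [h1] at h
        have h2 := Option.some.inj h
        have h3 := h'.choose_spec
        rw [h2] at h3
        exact h3
      · have h1 : typ x = none := dif_neg h'
        rw [h1] at h
        exact absurd h (by simp)
    · intro h
      have h' : ∃ ib : I × Bool, x ∈ B ib.1 ib.2 := ⟨(i, b), h⟩
      have h1 : typ x = some h'.choose := dif_pos h'
      rw [h1]
      congr 1
      by_contra hne
      exact Finset.disjoint_left.1 (hdisj h'.choose.1 h'.choose.2 i b hne) h'.choose_spec h
  have hlab := fun i => pair_labels (s i) (B i) Ω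
    (fun p hp b x hx y hy h1 h2 => huniq p hp i b x hx y hy h1 h2) (∑ j, 2 * s j) (hbig i)
  choose S hS1 hS2 using hlab
  choose xl hxl1 hxl2 using hcov
  let D : Split F I s :=
    { Om := Ω
      typ := typ
      xl := xl
      S := S
      hs := hs
      xl_on := hxl2
      xl_typ := fun i b p => (htyp _ i b).2 (hxl1 i b p)
      uniq := fun i b p hp x hpx hx => huniq p hp i b x ((htyp x i b).1 hx) _ (hxl1 i b p) hpx
        (hxl2 i b p)
      cardS := fun i p _ => hS1 i p
      rich := fun x i b hx L hL => hS2 i b x ((htyp x i b).1 hx) L hL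
      dir := by
        intro d
        refine lt_of_lt_of_le (Nat.lt_of_succ_le (hdir d)) ?_
        have h1 : ∀ c : F, ∑ i, ∑ b, (if (d, c) ∈ B i b then s i else 0) ≤
            ext s (typ (d, c)) := by
          intro c
          rcases ht : typ (d, c) with _ | ⟨j, b'⟩
          · refine le_of_eq (Finset.sum_eq_zero fun i _ => Finset.sum_eq_zero fun b _ => ?_)
            rw [if_neg]
            intro h
            rw [(htyp _ i b).2 h] at ht
            exact absurd ht (by simp)
          · have h2 : ∀ i b, (if (d, c) ∈ B i b then s i else 0) =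
                if (i, b) = (j, b') then s j else 0 := by
              intro i b
              by_cases h : (d, c) ∈ B i b
              · have h3 := (htyp _ i b).2 h
                rw [ht] at h3
                have h4 := Option.some.inj h3
                rw [if_pos h, if_pos h4.symm, (Prod.mk.inj h4).1]
              · rw [if_neg h, if_neg]
                intro h3
                obtain ⟨rfl, rfl⟩ := Prod.mk.inj h3
                exact h ((htyp _ _ _).1 ht)
            rw [← Fintype.sum_prod_type (f := fun ib : I × Bool =>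
              if (d, c) ∈ B ib.1 ib.2 then s ib.1 else 0)]
            rw [Finset.sum_congr rfl fun ib _ => h2 ib.1 ib.2]
            simp [ext]
        have h5 : ∑ c : F, ∑ i, ∑ b, (if (d, c) ∈ B i b then s i else 0) =
            ∑ i, ∑ b, s i * ((B i b).filter fun x => x.1 = d).card := ?_
        · rw [← h5]
          exact Finset.sum_le_sum fun c _ => h1 c
        rw [Finset.sum_comm]
        refine Finset.sum_congr rfl fun i _ => ?_
        rw [Finset.sum_comm]
        refine Finset.sum_congr rfl fun b _ => ?_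
        rw [← Finset.sum_filter, Finset.sum_const, smul_eq_mul, mul_comm]
        congr 1
        refine Finset.card_bij (fun c _ => (d, c)) ?_ ?_ ?_
        · intro c hc
          exact Finset.mem_filter.2 ⟨(Finset.mem_filter.1 hc).2, rfl⟩
        · intro c _ c' _ h
          exact (Prod.mk.inj h).2
        · intro x hx
          obtain ⟨hx1, hx2⟩ := Finset.mem_filter.1 hx
          refine ⟨x.2, Finset.mem_filter.2 ⟨Finset.mem_univ _, ?_⟩, ?_⟩
          · rw [← hx2]; exact hx1
          · rw [← hx2] }
  exact Split.dualCE D ht2 hrig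

/-- The gadget theorem in the form of the skeleton (with a set `A` of all colours). -/
theorem gadget {I A : Type} [Fintype I] [DecidableEq I] [Fintype A] [DecidableEq A]
    (cl : A → I) (s : I → ℕ) (hs : ∀ i, 2 ≤ s i)
    (hA : ∀ i, (Finset.univ.filter fun a => cl a = i).card = 2 * s i)
    (B : I → Bool → Finset (Line F)) (Ω : Finset (Pt F)) (_hΩ : Ω.Nonempty)
    (hdisj : ∀ i b j c, (i, b) ≠ (j, c) → Disjoint (B i b) (B j c))
    (hcov : ∀ i b p, ∃ x ∈ B i b, On p x)
    (huniq : ∀ p ∈ Ω, ∀ i b, ∀ x ∈ B i b, ∀ y ∈ B i b, On p x → On p y → x = y)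
    (t : ℕ) (ht : Fintype.card A = t)
    (hdir : ∀ d : Option F, t + 1 ≤ ∑ i, ∑ b, s i * ((B i b).filter fun x => x.1 = d).card)
    (hbig : ∀ i b, ∀ x ∈ B i b,
      (t + 1) * ∑ j, 2 * (2 * s j).choose (s j) ≤ (Ω.filter fun p => On p x).card)
    (ht2 : t ^ 2 < Fintype.card F)
    (hrig : ∀ L : Finset (Line F), L.card ≤ Fintype.card F + t →
      (∀ p ∈ Ω, ∃ x ∈ L, On p x) → ∀ p, ∃ x ∈ L, On p x) :
    DualCE (Fintype.card F + 1 + t) := by
  classical
  have hT : t = ∑ i, 2 * s i := by
    rw [← ht, ← Finset.card_univ,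
      Finset.card_eq_sum_card_fiberwise (f := cl) (t := univ) (fun _ _ => Finset.mem_univ _)]
    exact Finset.sum_congr rfl fun i _ => hA i
  subst hT
  refine gadget' s hs B Ω hdisj hcov huniq hdir ?_ ht2 hrig
  intro i b x hx
  refine le_trans ?_ (hbig i b x hx)
  calc 2 * ((∑ j, 2 * s j) + 1) * (2 * s i).choose (s i)
      = ((∑ j, 2 * s j) + 1) * (2 * (2 * s i).choose (s i)) := by ring
    _ ≤ _ := by
      refine Nat.mul_le_mul_left _ ?_
      exact Finset.single_le_sum (f := fun j => 2 * (2 * s j).choose (s j))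
        (fun _ _ => Nat.zero_le _) (Finset.mem_univ i)

end

end P045.LS
end

section
/-!
# P045: linear classes of split lines, first facts
-/

namespace P045.LS

variable {k F : Type} [Field k] [Fintype k] [DecidableEq k] [Field F] [Fintype F] [DecidableEq F]
  [Algebra k F]

omit [DecidableEq k] [Fintype F] [DecidableEq F] in
theorem linA_den_ne (l : k) (hl : l ≠ 0) (z : F) (hz : z ≠ 0) :
    algebraMap k F l * z ^ Fintype.card k ≠ 0 :=
  mul_ne_zero ((map_ne_zero _).2 hl) (pow_ne_zero _ hz)

omit [DecidableEq k] [Fintype F] [DecidableEq F] in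
theorem on_lin (l : k) (hl : l ≠ 0) (z : F) (hz : z ≠ 0) (a : k) (p : Pt F) :
    On p (lin l z a) ↔
      z * p 0 + algebraMap k F l * z ^ Fintype.card k * p 1 + algebraMap k F a = 0 := by
  have hD := linA_den_ne l hl z hz
  unfold On lin
  change p 1 - -(z / (algebraMap k F l * z ^ Fintype.card k)) * p 0 =
    -(algebraMap k F a / (algebraMap k F l * z ^ Fintype.card k)) ↔ _
  set D := algebraMap k F l * z ^ Fintype.card k
  constructor
  · intro h
    have h2 := congrArg (fun t => D * t) h
    have h3 : D * (p 1 - -(z / D) * p 0) = D * p 1 + z * p 0 := by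
      field_simp
      ring
    have h4 : D * -(algebraMap k F a / D) = -algebraMap k F a := by
      field_simp
    rw [h3, h4] at h2
    linear_combination h2
  · intro h
    have h5 : algebraMap k F a = -(z * p 0 + D * p 1) := by linear_combination h
    rw [h5]
    field_simp
    ring

/-- the `k`-linear map whose kernel describes the lines of a class through a point -/
noncomputable def linPhi (l : k) (p : Pt F) : F × k →ₗ[k] F :=
  (LinearMap.mulRight k (p 0)).comp (LinearMap.fst k F k) +
    ((LinearMap.mulLeft k (algebraMap k F l * p 1)).comp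
      ((FiniteField.frobeniusAlgHom k F).toLinearMap.comp (LinearMap.fst k F k)) +
    (Algebra.linearMap k F).comp (LinearMap.snd k F k))

omit [DecidableEq k] [Fintype F] [DecidableEq F] in
theorem linPhi_apply (l : k) (p : Pt F) (z : F) (a : k) :
    linPhi l p (z, a) =
      z * p 0 + algebraMap k F l * z ^ Fintype.card k * p 1 + algebraMap k F a := by
  unfold linPhi
  simp only [LinearMap.add_apply, LinearMap.comp_apply, LinearMap.fst_apply,
    LinearMap.snd_apply, LinearMap.mulRight_apply, LinearMap.mulLeft_apply,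
    AlgHom.toLinearMap_apply, Algebra.linearMap_apply, FiniteField.coe_frobeniusAlgHom]
  ring

omit [DecidableEq k] in
theorem cls_cov (l : k) (hl : l ≠ 0) (p : Pt F) : ∃ x ∈ cls F l, On p x := by
  have hfin : Module.Finite k F := Module.Finite.of_finite
  have h1 : Module.finrank k F < Module.finrank k (F × k) := by
    rw [Module.finrank_prod, Module.finrank_self]
    omega
  have h2 : LinearMap.ker (linPhi l p) ≠ ⊥ := LinearMap.ker_ne_bot_of_finrank_lt h1
  obtain ⟨⟨z, a⟩, hmem, hne⟩ := (Submodule.ne_bot_iff _).1 h2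
  rw [LinearMap.mem_ker, linPhi_apply] at hmem
  have hz : z ≠ 0 := by
    rintro rfl
    refine hne ?_
    rw [zero_mul, zero_pow Fintype.card_ne_zero, mul_zero, zero_mul, zero_add, zero_add] at hmem
    rw [(map_eq_zero _).1 hmem]
    rfl
  refine ⟨lin l z a, Finset.mem_image.2 ⟨(z, a), ?_, rfl⟩, (on_lin l hl z hz a p).2 hmem⟩
  rw [Finset.mem_filter]
  exact ⟨Finset.mem_univ _, hz⟩

omit [DecidableEq k] in
theorem cls_slope (l : k) (hl : l ≠ 0) (x : Line F) (hx : x ∈ cls F l) :
    ∃ m : F, m ≠ 0 ∧ x.1 = some m := by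
  obtain ⟨⟨z, a⟩, hu, rfl⟩ := Finset.mem_image.1 hx
  rw [Finset.mem_filter] at hu
  exact ⟨_, neg_ne_zero.2 (div_ne_zero hu.2 (linA_den_ne l hl z hu.2)), rfl⟩

theorem sum_wt : ∑ x : Line F, wt k x ≤
    (Fintype.card k - 1) * (Fintype.card k * Fintype.card F) := by
  have h1 : ∑ x : Line F, wt k x =
      (Finset.univ.filter fun u : k × F × k => u.1 ≠ 0 ∧ u.2.1 ≠ 0).card := by
    rw [Finset.card_eq_sum_card_fiberwise (f := fun u : k × F × k => lin u.1 u.2.1 u.2.2)
      (t := Finset.univ) (fun _ _ => Finset.mem_coe.2 (Finset.mem_univ _))]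
    refine Finset.sum_congr rfl fun x _ => ?_
    unfold wt
    rw [Finset.filter_filter]
    congr 1
    ext u
    simp only [Finset.mem_filter, Finset.mem_univ, true_and, and_assoc]
  have h2 : (Finset.univ.filter fun u : k × F × k => u.1 ≠ 0 ∧ u.2.1 ≠ 0) ⊆
      (Finset.univ.erase (0 : k)) ×ˢ (Finset.univ : Finset (F × k)) := by
    intro u hu
    rw [Finset.mem_filter] at hu
    rw [Finset.mem_product, Finset.mem_erase]
    exact ⟨⟨hu.2.1, Finset.mem_univ _⟩, Finset.mem_univ _⟩
  have h3 := Finset.card_le_card h2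
  rw [Finset.card_product, Finset.card_erase_of_mem (Finset.mem_univ _), Finset.card_univ,
    Finset.card_univ, Fintype.card_prod, mul_comm (Fintype.card F)] at h3
  rw [h1]
  exact h3

end P045.LS
end

section
/-! Linear sets of lines: slopes. -/

set_option linter.unusedSectionVars false

namespace P045.LS

variable {k F : Type} [Field k] [Fintype k] [DecidableEq k] [Field F] [Fintype F] [DecidableEq F]
  [Algebra k F]

theorem linB_slope (l : k) (hl : l ≠ 0) (z : F) (hz : z ≠ 0) :
    -(z / (algebraMap k F l * z ^ Fintype.card k)) =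
      -(algebraMap k F l * z ^ (Fintype.card k - 1))⁻¹ := by
  have hl' : algebraMap k F l ≠ 0 := by
    rw [Ne, FaithfulSMul.algebraMap_eq_zero_iff]
    exact hl
  have hq : Fintype.card k = Fintype.card k - 1 + 1 := by
    have := Fintype.card_pos (α := k)
    omega
  conv_lhs => rw [hq]
  rw [pow_succ]
  field_simp

theorem linB_norm_pow (z : F) (hz : z ≠ 0) :
    Algebra.norm k (z ^ (Fintype.card k - 1)) = 1 := by
  rw [map_pow]
  exact FiniteField.pow_card_sub_one_eq_one _ (Algebra.norm_ne_zero_iff.2 hz)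

theorem linB_pow_inj (hco : Nat.Coprime (Module.finrank k F) (Fintype.card k - 1))
    (l l' : k) (hl : l ≠ 0) (hl' : l' ≠ 0)
    (h : l ^ Module.finrank k F = l' ^ Module.finrank k F) : l = l' := by
  have h1 : (l / l') ^ Module.finrank k F = 1 := by
    rw [div_pow, h, div_self (pow_ne_zero _ hl')]
  have h2 : (l / l') ^ (Fintype.card k - 1) = 1 :=
    FiniteField.pow_card_sub_one_eq_one _ (div_ne_zero hl hl')
  have h3 : orderOf (l / l') ∣ 1 := by
    rw [← hco]
    exact Nat.dvd_gcd (orderOf_dvd_of_pow_eq_one h1) (orderOf_dvd_of_pow_eq_one h2)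
  have h4 : l / l' = 1 := orderOf_eq_one_iff.1 (Nat.dvd_one.1 h3)
  rwa [div_eq_one_iff_eq hl'] at h4

theorem linB_pow_surj (hco : Nat.Coprime (Module.finrank k F) (Fintype.card k - 1))
    (b : k) (hb : b ≠ 0) : ∃ l : k, l ≠ 0 ∧ l ^ Module.finrank k F = b := by
  have hinj : Function.Injective (fun u : kˣ => u ^ Module.finrank k F) := by
    intro u v huv
    have h1 : (u : k) ^ Module.finrank k F = (v : k) ^ Module.finrank k F := by
      have := congrArg Units.val huv
      simpa using this
    exact Units.ext (linB_pow_inj hco u v u.ne_zero v.ne_zero h1)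
  obtain ⟨u, hu⟩ := (Finite.injective_iff_surjective.1 hinj) (Units.mk0 b hb)
  refine ⟨u, u.ne_zero, ?_⟩
  have := congrArg Units.val hu
  simpa using this

theorem linB_hilbert90 (c : F) (hc : c ≠ 0) (h : Algebra.norm k c = 1) :
    ∃ z : F, z ≠ 0 ∧ z ^ (Fintype.card k - 1) = c := by
  classical
  have hdvd : Fintype.card k - 1 ∣ Fintype.card F - 1 := by
    rw [Module.card_eq_pow_finrank (K := k) (V := F)]
    simpa using Nat.sub_dvd_pow_sub_pow (Fintype.card k) 1 (Module.finrank k F)
  obtain ⟨d, hd⟩ := hdvd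
  have hk1 : 0 < Fintype.card k - 1 := by
    have := Fintype.one_lt_card (α := k)
    omega
  have hF1 : 0 < Fintype.card F - 1 := by
    have := Fintype.one_lt_card (α := F)
    omega
  have hd0 : 0 < d := by
    rcases Nat.eq_zero_or_pos d with h0 | h0
    · rw [h0, mul_zero] at hd
      omega
    · exact h0
  have h1 : c ^ d = 1 := by
    have h2 := FiniteField.algebraMap_norm_eq_pow (K := k) (x := c)
    rw [h, map_one, Nat.card_eq_fintype_card, Nat.card_eq_fintype_card, hd,
      Nat.mul_div_cancel_left d hk1] at h2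
    exact h2.symm
  obtain ⟨g, hg⟩ := IsCyclic.exists_generator (α := Fˣ)
  have hord : orderOf g = Fintype.card F - 1 := by
    rw [orderOf_eq_card_of_forall_mem_zpowers hg, Nat.card_eq_fintype_card, Fintype.card_units]
  have hmem := hg (Units.mk0 c hc)
  rw [← mem_powers_iff_mem_zpowers] at hmem
  obtain ⟨i, hi⟩ := hmem
  have h3 : g ^ (i * d) = 1 := by
    rw [pow_mul]
    have hi' : g ^ i = Units.mk0 c hc := hi
    rw [hi']
    apply Units.ext
    simpa using h1
  have h4 := orderOf_dvd_of_pow_eq_one h3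
  rw [hord, hd] at h4
  have h5 : Fintype.card k - 1 ∣ i := Nat.dvd_of_mul_dvd_mul_right hd0 h4
  obtain ⟨j, rfl⟩ := h5
  refine ⟨(g ^ j : Fˣ), Units.ne_zero _, ?_⟩
  have hi' : g ^ ((Fintype.card k - 1) * j) = Units.mk0 c hc := hi
  have h6 := congrArg Units.val hi'
  rw [mul_comm, pow_mul] at h6
  simpa using h6

theorem cls_disj (hco : Nat.Coprime (Module.finrank k F) (Fintype.card k - 1))
    (l l' : k) (hl : l ≠ 0) (hl' : l' ≠ 0) (hne : l ≠ l') : Disjoint (cls F l) (cls F l') := by
  rw [Finset.disjoint_left]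
  intro x hx hx'
  simp only [cls, Finset.mem_image, Finset.mem_filter, Finset.mem_univ, true_and] at hx hx'
  obtain ⟨⟨z, a⟩, hz, rfl⟩ := hx
  obtain ⟨⟨z', a'⟩, hz', heq⟩ := hx'
  simp only at hz hz' heq
  have h1 := congrArg Prod.fst heq
  simp only [lin, Option.some.injEq] at h1
  rw [linB_slope l hl z hz, linB_slope l' hl' z' hz', neg_inj, inv_inj] at h1
  have h2 := congrArg (Algebra.norm k) h1
  rw [map_mul, map_mul, linB_norm_pow z hz, linB_norm_pow z' hz', mul_one, mul_one,
    Algebra.norm_algebraMap, Algebra.norm_algebraMap] at h2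
  exact hne (linB_pow_inj hco l l' hl hl' h2.symm)

/-- every slope `m ≠ 0` occurs in a class, for `q` different lines -/
theorem cls_dir (hco : Nat.Coprime (Module.finrank k F) (Fintype.card k - 1)) (m : F)
    (hm : m ≠ 0) :
    ∃ l : k, l ≠ 0 ∧ Fintype.card k ≤ ((cls F l).filter fun x => x.1 = some m).card := by
  classical
  have hc : -m⁻¹ ≠ 0 := neg_ne_zero.2 (inv_ne_zero hm)
  obtain ⟨l, hl, hl1⟩ := linB_pow_surj (F := F) hco (Algebra.norm k (-m⁻¹))
    (Algebra.norm_ne_zero_iff.2 hc)
  have hl' : algebraMap k F l ≠ 0 := by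
    rw [Ne, FaithfulSMul.algebraMap_eq_zero_iff]
    exact hl
  obtain ⟨z, hz, hz1⟩ := linB_hilbert90 (k := k) (-m⁻¹ / algebraMap k F l)
    (div_ne_zero hc hl') (by
      have h1 : Algebra.norm k (-m⁻¹ / algebraMap k F l) * Algebra.norm k (algebraMap k F l) =
          Algebra.norm k (-m⁻¹) := by
        rw [← map_mul, div_mul_cancel₀ _ hl']
      rw [Algebra.norm_algebraMap, hl1] at h1
      exact mul_right_cancel₀ (Algebra.norm_ne_zero_iff.2 hc) (h1.trans (one_mul _).symm))
  refine ⟨l, hl, ?_⟩
  have hinj : Function.Injective (fun a : k => lin l z a) := by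
    intro a b hab
    have h1 := congrArg Prod.snd hab
    simp only [lin, neg_inj] at h1
    have h2 : algebraMap k F l * z ^ Fintype.card k ≠ 0 := mul_ne_zero hl' (pow_ne_zero _ hz)
    rw [div_left_inj' h2] at h1
    exact (algebraMap k F).injective h1
  have hsub : (Finset.univ.image (fun a : k => lin l z a)) ⊆
      ((cls F l).filter fun x => x.1 = some m) := by
    intro x hx
    simp only [Finset.mem_image, Finset.mem_univ, true_and] at hx
    obtain ⟨a, rfl⟩ := hx
    simp only [Finset.mem_filter, cls, Finset.mem_image, Finset.mem_univ, true_and]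
    refine ⟨⟨(z, a), hz, rfl⟩, ?_⟩
    simp only [lin, Option.some.injEq]
    rw [linB_slope l hl z hz, hz1, mul_div_cancel₀ _ hl', inv_neg, inv_inv, neg_neg]
  have h3 := Finset.card_le_card hsub
  rw [Finset.card_image_of_injective _ hinj, Finset.card_univ] at h3
  exact h3

end P045.LS
end

section
/-!
# The points outside `Om`
-/

namespace P045.LS

open Finset

set_option linter.unusedSectionVars false

variable {k F : Type} [Field k] [Fintype k] [DecidableEq k] [Field F] [Fintype F] [DecidableEq F]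
  [Algebra k F]

namespace LinC

/-! ### Plane -/

theorem eq_pt {x y : Line F} {p p' : Pt F} (hxy : x ≠ y) (h1 : On p x) (h2 : On p' x)
    (h3 : On p y) (h4 : On p' y) : p = p' := by
  obtain ⟨d, c⟩ := x
  obtain ⟨d', c'⟩ := y
  unfold On at h1 h2 h3 h4
  simp only at h1 h2 h3 h4
  have key : p 0 = p' 0 ∧ p 1 = p' 1 := by
    rcases d with _ | m <;> rcases d' with _ | m' <;> simp only [icpt] at h1 h2 h3 h4
    · exact absurd (by rw [← h1, ← h3]) hxy
    · have h0 : p 0 = p' 0 := by rw [h1, h2]
      refine ⟨h0, ?_⟩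
      rw [h0] at h3
      linear_combination h3 - h4
    · have h0 : p 0 = p' 0 := by rw [h3, h4]
      refine ⟨h0, ?_⟩
      rw [h0] at h1
      linear_combination h1 - h2
    · by_cases hm : m = m'
      · subst hm
        exact absurd (by rw [← h1, ← h3]) hxy
      · have h5 : (m - m') * (p 0 - p' 0) = 0 := by
          linear_combination h3 - h4 - h1 + h2
        have h0 : p 0 = p' 0 := by
          rcases mul_eq_zero.mp h5 with h | h
          · exact absurd (sub_eq_zero.mp h) hm
          · exact sub_eq_zero.mp h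
        refine ⟨h0, ?_⟩
        rw [h0] at h1
        linear_combination h1 - h2
  ext i
  fin_cases i
  · exact key.1
  · exact key.2

theorem card_pts (x : Line F) :
    (univ.filter fun p : Pt F => On p x).card = Fintype.card F := by
  obtain ⟨d, c⟩ := x
  rcases d with _ | m
  · rw [← Finset.card_univ]
    refine Finset.card_nbij' (fun p => p 1) (fun y => ![c, y]) ?_ ?_ ?_ ?_
    · intro p _; simp
    · intro y _
      rw [mem_coe, mem_filter]
      refine ⟨mem_univ _, ?_⟩
      change icpt none ![c, y] = c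
      simp [icpt]
    · intro p hp
      rw [mem_coe, mem_filter] at hp
      have h0 : p 0 = c := hp.2
      ext i
      fin_cases i
      · simp [h0]
      · simp
    · intro y _; simp
  · rw [← Finset.card_univ]
    refine Finset.card_nbij' (fun p => p 0) (fun y => ![y, c + m * y]) ?_ ?_ ?_ ?_
    · intro p _; simp
    · intro y _
      rw [mem_coe, mem_filter]
      refine ⟨mem_univ _, ?_⟩
      change icpt (some m) ![y, c + m * y] = c
      simp [icpt]
    · intro p hp
      rw [mem_coe, mem_filter] at hp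
      have h0 : p 1 - m * p 0 = c := hp.2
      ext i
      fin_cases i
      · simp
      · simp only [Fin.mk_one, Matrix.cons_val_one, Matrix.cons_val_fin_one]
        rw [← h0]
        ring
    · intro y _; simp

theorem card_inter_le {x y : Line F} (hxy : x ≠ y) :
    (univ.filter fun p : Pt F => On p x ∧ On p y).card ≤ 1 := by
  rw [Finset.card_le_one]
  intro p hp p' hp'
  simp only [mem_filter, mem_univ, true_and] at hp hp'
  exact eq_pt hxy hp.1 hp'.1 hp.2 hp'.2

/-! ### The lines of a class -/

theorem alg_ne {l : k} (hl : l ≠ 0) : algebraMap k F l ≠ 0 := by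
  rw [Ne, map_eq_zero]
  exact hl

theorem on_lin' (l : k) (hl : l ≠ 0) (z : F) (hz : z ≠ 0) (a : k) (p : Pt F) :
    On p (lin l z a) ↔
      z * p 0 + algebraMap k F l * z ^ Fintype.card k * p 1 + algebraMap k F a = 0 := by
  have hD : algebraMap k F l * z ^ Fintype.card k ≠ 0 :=
    mul_ne_zero (alg_ne hl) (pow_ne_zero _ hz)
  unfold On lin icpt
  simp only
  set D := algebraMap k F l * z ^ Fintype.card k
  constructor
  · intro h
    have h2 : D * (p 1 - -(z / D) * p 0) = D * -(algebraMap k F a / D) := by rw [h]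
    have h3 : D * (p 1 - -(z / D) * p 0) = D * p 1 + z * p 0 := by field_simp; ring
    have h4 : D * -(algebraMap k F a / D) = - algebraMap k F a := by field_simp
    rw [h3, h4] at h2
    linear_combination h2
  · intro h
    have h2 : D * (p 1 - -(z / D) * p 0) = D * -(algebraMap k F a / D) := by
      have h3 : D * (p 1 - -(z / D) * p 0) = D * p 1 + z * p 0 := by field_simp; ring
      have h4 : D * -(algebraMap k F a / D) = - algebraMap k F a := by field_simp
      rw [h3, h4]
      linear_combination h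
    exact mul_left_cancel₀ hD h2

theorem lin_smul (l : k) (z : F) (a : k) {c : k} (hc : c ≠ 0) :
    lin l (c • z) (c • a) = lin l z a := by
  have hc' : algebraMap k F c ≠ 0 := alg_ne hc
  have h1 : (c • z) ^ Fintype.card k = algebraMap k F c * z ^ Fintype.card k := by
    rw [Algebra.smul_def, mul_pow, ← map_pow, FiniteField.pow_card]
  unfold lin
  rw [h1]
  have h2 : algebraMap k F l * (algebraMap k F c * z ^ Fintype.card k) =
      algebraMap k F c * (algebraMap k F l * z ^ Fintype.card k) := by ring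
  rw [h2, Algebra.smul_def, smul_eq_mul, map_mul, mul_div_mul_left _ _ hc',
    mul_div_mul_left _ _ hc']

/-- the linear form `(z, a) ↦ z x + l z^q y + a` -/
noncomputable def phi (l : k) (p : Pt F) : (F × k) →ₗ[k] F :=
  (LinearMap.mulRight k (p 0)) ∘ₗ LinearMap.fst k F k +
    (LinearMap.mulLeft k (algebraMap k F l * p 1)) ∘ₗ
      (FiniteField.frobeniusAlgHom k F).toLinearMap ∘ₗ LinearMap.fst k F k +
    (Algebra.linearMap k F) ∘ₗ LinearMap.snd k F k

theorem phi_apply (l : k) (p : Pt F) (u : F × k) :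
    phi l p u = u.1 * p 0 + algebraMap k F l * u.1 ^ Fintype.card k * p 1 +
      algebraMap k F u.2 := by
  simp [phi]
  ring

/-- the vectors whose line is through `p` -/
def Ks (l : k) (p : Pt F) : Finset (F × k) :=
  univ.filter fun u : F × k => u.1 ≠ 0 ∧ On p (lin l u.1 u.2)

theorem fst_ne {l : k} {p : Pt F} {u : F × k} (hu : u ≠ 0) (h : phi l p u = 0) :
    u.1 ≠ 0 := by
  intro h0
  rw [phi_apply, h0, zero_mul, zero_pow Fintype.card_ne_zero, mul_zero, zero_mul, zero_add,
    zero_add, map_eq_zero] at h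
  exact hu (Prod.ext h0 h)

theorem mem_Ks {l : k} (hl : l ≠ 0) {p : Pt F} {u : F × k} :
    u ∈ Ks l p ↔ u ≠ 0 ∧ phi l p u = 0 := by
  unfold Ks
  simp only [mem_filter, mem_univ, true_and]
  constructor
  · rintro ⟨h1, h2⟩
    refine ⟨fun h => h1 (by rw [h]; rfl), ?_⟩
    rw [phi_apply]
    exact (on_lin' l hl u.1 h1 u.2 p).mp h2
  · rintro ⟨h1, h2⟩
    have h3 := fst_ne h1 h2
    refine ⟨h3, (on_lin' l hl u.1 h3 u.2 p).mpr ?_⟩
    rw [phi_apply] at h2
    exact h2

theorem exists_mem_Ks {l : k} (hl : l ≠ 0) (p : Pt F) : ∃ u, u ∈ Ks l p := by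
  by_contra hcon
  push Not at hcon
  have hinj : Function.Injective (phi l p) := by
    rw [injective_iff_map_eq_zero]
    intro u hu
    by_contra h0
    exact hcon u ((mem_Ks hl).mpr ⟨h0, hu⟩)
  have h1 := Fintype.card_le_of_injective _ hinj
  rw [Fintype.card_prod] at h1
  have h2 : 1 < Fintype.card k := Fintype.one_lt_card
  have h3 : 0 < Fintype.card F := Fintype.card_pos
  nlinarith

theorem card_le_Ks {l : k} (hl : l ≠ 0) (p : Pt F) : Fintype.card k ≤ (Ks l p).card + 1 := by
  classical
  obtain ⟨u, hu⟩ := exists_mem_Ks hl p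
  obtain ⟨hu0, hu1⟩ := (mem_Ks hl).mp hu
  rw [← Finset.card_univ (α := k)]
  have h1 : (univ : Finset k).card ≤ (insert 0 (Ks l p)).card := by
    apply Finset.card_le_card_of_injOn (fun c => c • u)
    · intro c _
      simp only [coe_insert, Set.mem_insert_iff, mem_coe]
      by_cases hc : c = 0
      · left; rw [hc, zero_smul]
      · right
        rw [mem_Ks hl]
        exact ⟨smul_ne_zero hc hu0, by rw [map_smul, hu1, smul_zero]⟩
    · intro c _ c' _ h
      exact smul_left_injective k hu0 h
  exact h1.trans (card_insert_le _ _)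

theorem sq_le_Ks {l : k} (hl : l ≠ 0) {p : Pt F} {x y : Line F} (hx : x ∈ cls F l)
    (hy : y ∈ cls F l) (hxy : x ≠ y) (hpx : On p x) (hpy : On p y) :
    Fintype.card k ^ 2 ≤ (Ks l p).card + 1 := by
  classical
  unfold cls at hx hy
  rw [mem_image] at hx hy
  obtain ⟨u, hu, rfl⟩ := hx
  obtain ⟨v, hv, rfl⟩ := hy
  rw [mem_filter] at hu hv
  have hu' : u ∈ Ks l p := by
    unfold Ks; rw [mem_filter]; exact ⟨mem_univ _, hu.2, hpx⟩
  have hv' : v ∈ Ks l p := by
    unfold Ks; rw [mem_filter]; exact ⟨mem_univ _, hv.2, hpy⟩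
  obtain ⟨hu0, hu1⟩ := (mem_Ks hl).mp hu'
  obtain ⟨hv0, hv1⟩ := (mem_Ks hl).mp hv'
  have hcard : Fintype.card k ^ 2 = (univ : Finset (k × k)).card := by
    rw [card_univ, Fintype.card_prod, sq]
  rw [hcard]
  have h1 : (univ : Finset (k × k)).card ≤ (insert 0 (Ks l p)).card := by
    apply Finset.card_le_card_of_injOn (fun c => c.1 • u + c.2 • v)
    · intro c _
      simp only [coe_insert, Set.mem_insert_iff, mem_coe]
      by_cases hc : c.1 • u + c.2 • v = 0
      · exact Or.inl hc
      · right
        rw [mem_Ks hl]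
        exact ⟨hc, by rw [map_add, map_smul, map_smul, hu1, hv1, smul_zero, smul_zero, add_zero]⟩
    · rintro ⟨c, d⟩ _ ⟨c', d'⟩ _ h
      simp only at h
      have h2 : (c - c') • u = (d' - d) • v := by
        rw [sub_smul, sub_smul, sub_eq_sub_iff_add_eq_add, h, add_comm]
      by_cases hc : c = c'
      · subst hc
        rw [sub_self, zero_smul] at h2
        have h3 := (smul_eq_zero.mp h2.symm).resolve_right hv0
        rw [sub_eq_zero] at h3
        rw [h3]
      · exfalso
        have hc' : c - c' ≠ 0 := sub_ne_zero.mpr hc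
        have h4 : u = ((c - c')⁻¹ * (d' - d)) • v := by
          rw [mul_smul, ← h2, smul_smul, inv_mul_cancel₀ hc', one_smul]
        have he : (c - c')⁻¹ * (d' - d) ≠ 0 := by
          intro h5
          rw [h5, zero_smul] at h4
          exact hu0 h4
        apply hxy
        rw [h4]
        exact lin_smul l v.1 v.2 he
  exact h1.trans (card_insert_le _ _)

/-- a line is the line of at most `q - 1` vectors -/
theorem card_vec_le {l : k} (hl : l ≠ 0) (P : Line F) :
    (univ.filter fun u : F × k => u.1 ≠ 0 ∧ lin l u.1 u.2 = P).card ≤ Fintype.card k - 1 := by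
  classical
  obtain ⟨d, c⟩ := P
  rcases d with _ | m
  · rw [Finset.card_eq_zero.mpr]
    · exact Nat.zero_le _
    · rw [Finset.filter_eq_empty_iff]
      rintro u _ ⟨_, h⟩
      unfold lin at h
      rw [Prod.mk.injEq] at h
      exact Option.some_ne_none _ h.1
  · have hq : 0 < Fintype.card k - 1 := by
      have : 1 < Fintype.card k := Fintype.one_lt_card
      omega
    have h1 : (univ.filter fun u : F × k => u.1 ≠ 0 ∧ lin l u.1 u.2 = (some m, c)).card ≤
        (Polynomial.nthRoots (Fintype.card k - 1) (-(m * algebraMap k F l))⁻¹).toFinset.card := by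
      apply Finset.card_le_card_of_injOn (fun u => u.1)
      · intro u hu
        rw [mem_coe, mem_filter] at hu
        replace hu := hu.2
        obtain ⟨hz, h⟩ := hu
        unfold lin at h
        rw [Prod.mk.injEq, Option.some.injEq] at h
        rw [mem_coe, Multiset.mem_toFinset, Polynomial.mem_nthRoots hq]
        have hD := alg_ne (F := F) hl
        have hpow : u.1 ^ Fintype.card k = u.1 ^ (Fintype.card k - 1) * u.1 := by
          rw [← pow_succ]
          congr 1
          omega
        have hw : u.1 ^ (Fintype.card k - 1) ≠ 0 := pow_ne_zero _ hz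
        rw [← h.1, hpow]
        field_simp
      · rintro ⟨z, a⟩ hu ⟨z', a'⟩ hu' heq
        rw [mem_coe, mem_filter] at hu hu'
        replace hu := hu.2
        replace hu' := hu'.2
        simp only at heq
        subst heq
        obtain ⟨hz, h⟩ := hu
        obtain ⟨_, h'⟩ := hu'
        unfold lin at h h'
        rw [Prod.mk.injEq] at h h'
        have hD : algebraMap k F l * z ^ Fintype.card k ≠ 0 :=
          mul_ne_zero (alg_ne hl) (pow_ne_zero _ hz)
        have h2 := h.2.trans h'.2.symm
        rw [neg_inj, div_left_inj' hD] at h2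
        exact Prod.ext rfl ((algebraMap k F).injective h2)
    refine h1.trans ((Multiset.toFinset_card_le _).trans (Polynomial.card_nthRoots _ _))

theorem dc {α β : Type} (S : Finset α) (T : Finset β) (R : α → β → Prop)
    [∀ a b, Decidable (R a b)] (m : ℕ) (h : ∀ b ∈ T, (S.filter fun a => R a b).card ≤ m) :
    ∑ a ∈ S, (T.filter fun b => R a b).card ≤ T.card * m := by
  have h1 := Finset.sum_card_bipartiteAbove_eq_sum_card_bipartiteBelow (s := S) (t := T) R
  unfold Finset.bipartiteAbove Finset.bipartiteBelow at h1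
  rw [h1]
  exact Finset.sum_le_card_nsmul _ _ _ h

theorem card_vec : (univ.filter fun u : F × k => u.1 ≠ 0).card =
    (Fintype.card F - 1) * Fintype.card k := by
  have h1 : (univ.filter fun u : F × k => u.1 ≠ 0) = (univ.erase (0 : F)) ×ˢ (univ : Finset k) := by
    ext u
    simp
  rw [h1, card_product, card_erase_of_mem (mem_univ _), card_univ, card_univ]

/-- the points on two lines of the class -/
def Bd (l : k) : Finset (Pt F) :=
  univ.filter fun p => ∃ x ∈ cls F l, ∃ y ∈ cls F l, On p x ∧ On p y ∧ x ≠ y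

theorem mem_Om_compl (p : Pt F) : p ∉ Om k F ↔ ∃ l : k, l ≠ 0 ∧ p ∈ Bd (F := F) l := by
  unfold Om Bd
  simp only [mem_filter, mem_univ, true_and]
  push Not
  constructor
  · rintro ⟨l, hl, x, hx, y, hy, h1, h2, h3⟩
    exact ⟨l, hl, x, hx, y, hy, h1, h2, h3⟩
  · rintro ⟨l, hl, x, hx, y, hy, h1, h2, h3⟩
    exact ⟨l, hl, x, hx, y, hy, h1, h2, h3⟩

theorem Ks_Bd {l : k} (hl : l ≠ 0) {p : Pt F} (hp : p ∈ Bd (F := F) l) :
    Fintype.card k ^ 2 ≤ (Ks l p).card + 1 := by
  unfold Bd at hp
  simp only [mem_filter, mem_univ, true_and] at hp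
  obtain ⟨x, hx, y, hy, h1, h2, h3⟩ := hp
  exact sq_le_Ks hl hx hy h3 h1 h2

/-- lower bound for the sum over a set of points -/
theorem sum_Ks_ge {l : k} (hl : l ≠ 0) (S : Finset (Pt F)) :
    S.card * (Fintype.card k - 1) +
      (S.filter fun p => p ∈ Bd (F := F) l).card * (Fintype.card k * (Fintype.card k - 1)) ≤
      ∑ p ∈ S, (Ks l p).card := by
  classical
  obtain ⟨m, hm⟩ : ∃ m, Fintype.card k = m + 1 := ⟨Fintype.card k - 1, by
    have : 1 < Fintype.card k := Fintype.one_lt_card
    omega⟩
  have h1 : ∀ p ∈ S, (Fintype.card k - 1) + (if p ∈ Bd (F := F) l then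
      Fintype.card k * (Fintype.card k - 1) else 0) ≤ (Ks l p).card := by
    intro p _
    split_ifs with hp
    · have := Ks_Bd hl hp
      rw [hm] at this ⊢
      simp only [Nat.add_sub_cancel]
      nlinarith
    · have := card_le_Ks hl p
      omega
  refine le_trans (le_of_eq ?_) (sum_le_sum h1)
  rw [sum_add_distrib, sum_const, smul_eq_mul, ← sum_filter, sum_const, smul_eq_mul]

end LinC

open LinC

theorem card_Om_compl :
    Fintype.card k * ((Om k F)ᶜ).card ≤ Fintype.card F ^ 2 := by
  classical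
  have hq : 1 < Fintype.card k := Fintype.one_lt_card
  obtain ⟨m, hm⟩ : ∃ m, Fintype.card k = m + 1 := ⟨Fintype.card k - 1, by omega⟩
  have hm0 : 0 < m := by omega
  have hn : 0 < Fintype.card F := Fintype.card_pos
  obtain ⟨n', hn'⟩ : ∃ n', Fintype.card F = n' + 1 := ⟨Fintype.card F - 1, by omega⟩
  have hl : ∀ l : k, l ≠ 0 → (Bd (F := F) l).card * (Fintype.card k * m) ≤
      Fintype.card F ^ 2 := by
    intro l hl
    have h1 := sum_Ks_ge (F := F) hl univ
    have h2 : ∑ p : Pt F, (Ks l p).card ≤
        ((Fintype.card F - 1) * Fintype.card k) * Fintype.card F := by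
      have h3 := dc (univ : Finset (Pt F)) (univ.filter fun u : F × k => u.1 ≠ 0)
        (fun p u => On p (lin l u.1 u.2)) (Fintype.card F) (fun u _ => (card_pts _).le)
      rw [card_vec] at h3
      refine le_trans (le_of_eq ?_) h3
      refine sum_congr rfl fun p _ => ?_
      unfold Ks
      rw [filter_filter]
    have h4 : (univ : Finset (Pt F)).card = Fintype.card F ^ 2 := by
      rw [card_univ, Fintype.card_fun, Fintype.card_fin]
    rw [h4] at h1
    have h5 : (univ.filter fun p : Pt F => p ∈ Bd (F := F) l) = Bd l := by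
      ext p; simp
    rw [h5] at h1
    have h6 := h1.trans h2
    rw [hm, hn'] at h6 ⊢
    simp only [Nat.add_sub_cancel] at h6
    nlinarith
  have hsub : (Om k F)ᶜ ⊆ (univ.filter fun l : k => l ≠ 0).biUnion fun l => Bd (F := F) l := by
    intro p hp
    rw [mem_compl, mem_Om_compl] at hp
    obtain ⟨l, hl, hp⟩ := hp
    rw [mem_biUnion]
    exact ⟨l, by simpa using hl, hp⟩
  have h1 := (card_le_card hsub).trans card_biUnion_le
  have h2 : (∑ l ∈ univ.filter fun l : k => l ≠ 0, (Bd (F := F) l).card) *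
      (Fintype.card k * m) ≤ m * Fintype.card F ^ 2 := by
    rw [sum_mul]
    refine (sum_le_sum fun l hl' => hl l (by simpa using hl')).trans ?_
    rw [sum_const, smul_eq_mul]
    have h3 : (univ.filter fun l : k => l ≠ 0).card = m := by
      have : (univ.filter fun l : k => l ≠ 0) = univ.erase 0 := by ext l; simp
      rw [this, card_erase_of_mem (mem_univ _), card_univ, hm, Nat.add_sub_cancel]
    rw [h3]
  have h3 : m * (Fintype.card k * ((Om k F)ᶜ).card) ≤ m * Fintype.card F ^ 2 := by
    refine le_trans ?_ h2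
    have h4 := Nat.mul_le_mul_right (Fintype.card k * m) h1
    refine le_trans (le_of_eq ?_) h4
    ring
  exact Nat.le_of_mul_le_mul_left h3 hm0

theorem card_line_Om_compl
    (hco : Nat.Coprime (Module.finrank k F) (Fintype.card k - 1)) (P : Line F) :
    Fintype.card k * (Finset.univ.filter fun p => On p P ∧ p ∉ Om k F).card
      ≤ 2 * Fintype.card F := by
  classical
  have hq : 1 < Fintype.card k := Fintype.one_lt_card
  obtain ⟨m, hm⟩ : ∃ m, Fintype.card k = m + 1 := ⟨Fintype.card k - 1, by omega⟩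
  have hm0 : 0 < m := by omega
  have hn : 0 < Fintype.card F := Fintype.card_pos
  obtain ⟨n', hn'⟩ : ∃ n', Fintype.card F = n' + 1 := ⟨Fintype.card F - 1, by omega⟩
  set S : Finset (Pt F) := univ.filter fun p => On p P with hS
  have hScard : S.card = Fintype.card F := card_pts P
  have hl : ∀ l : k, l ≠ 0 → (S.filter fun p => p ∈ Bd (F := F) l).card * (Fintype.card k * m) ≤
      Fintype.card F + (if P ∈ cls F l then Fintype.card F * m else 0) := by
    intro l hl
    split_ifs with hP
    · -- the line is in the class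
      have h1 : ∀ p ∈ S.filter (fun p => p ∈ Bd (F := F) l), Fintype.card k * m ≤
          ((univ.filter fun u : F × k => u.1 ≠ 0 ∧ lin l u.1 u.2 ≠ P).filter
            fun u => On p (lin l u.1 u.2)).card := by
        intro p hp
        have h2 := Ks_Bd hl (mem_filter.mp hp).2
        have h3 := card_vec_le hl P
        have h4 : Ks l p ⊆ ((univ.filter fun u : F × k => u.1 ≠ 0 ∧ lin l u.1 u.2 ≠ P).filter
            fun u => On p (lin l u.1 u.2)) ∪
            (univ.filter fun u : F × k => u.1 ≠ 0 ∧ lin l u.1 u.2 = P) := by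
          intro u hu
          unfold Ks at hu
          simp only [mem_filter, mem_univ, true_and, mem_union] at hu ⊢
          by_cases h5 : lin l u.1 u.2 = P
          · exact Or.inr ⟨hu.1, h5⟩
          · exact Or.inl ⟨⟨hu.1, h5⟩, hu.2⟩
        have h5 := (card_le_card h4).trans (card_union_le _ _)
        rw [hm] at h2 h3 ⊢
        rw [Nat.add_sub_cancel] at h3
        nlinarith
      have h2 := sum_le_sum h1
      rw [sum_const, smul_eq_mul] at h2
      have h3 := dc (S.filter fun p => p ∈ Bd (F := F) l)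
        (univ.filter fun u : F × k => u.1 ≠ 0 ∧ lin l u.1 u.2 ≠ P)
        (fun p u => On p (lin l u.1 u.2)) 1 (fun u hu => by
          rw [mem_filter] at hu
          refine le_trans (card_le_card ?_) (card_inter_le hu.2.2)
          intro p hp
          rw [mem_filter, mem_filter, hS, mem_filter] at hp
          rw [mem_filter]
          exact ⟨mem_univ _, hp.2, hp.1.1.2⟩)
      have h4 : (univ.filter fun u : F × k => u.1 ≠ 0 ∧ lin l u.1 u.2 ≠ P).card ≤
          (Fintype.card F - 1) * Fintype.card k := by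
        rw [← card_vec (k := k) (F := F)]
        apply card_le_card
        intro u hu
        rw [mem_filter] at hu ⊢
        exact ⟨hu.1, hu.2.1⟩
      have h5 := h2.trans h3
      rw [hn', hm] at *
      simp only [Nat.add_sub_cancel] at h4
      nlinarith
    · -- the line is not in the class
      have h1 := sum_Ks_ge (F := F) hl S
      have h2 : ∑ p ∈ S, (Ks l p).card ≤ ((Fintype.card F - 1) * Fintype.card k) * 1 := by
        have h3 := dc S (univ.filter fun u : F × k => u.1 ≠ 0)
          (fun p u => On p (lin l u.1 u.2)) 1 (fun u hu => by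
            have hne : lin l u.1 u.2 ≠ P := by
              intro h
              apply hP
              rw [← h]
              exact mem_image.mpr ⟨u, hu, rfl⟩
            refine le_trans (card_le_card ?_) (card_inter_le hne)
            intro p hp
            rw [mem_filter, hS, mem_filter] at hp
            rw [mem_filter]
            exact ⟨mem_univ _, hp.2, hp.1.2⟩)
        rw [card_vec] at h3
        refine le_trans (le_of_eq ?_) h3
        refine sum_congr rfl fun p _ => ?_
        unfold Ks
        rw [filter_filter]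
      have h3 := h1.trans h2
      rw [hScard] at h3
      rw [hn', hm] at *
      simp only [Nat.add_sub_cancel] at h3
      nlinarith
  have hsub : (univ.filter fun p => On p P ∧ p ∉ Om k F) ⊆
      (univ.filter fun l : k => l ≠ 0).biUnion fun l => S.filter fun p => p ∈ Bd (F := F) l := by
    intro p hp
    rw [mem_filter, mem_Om_compl] at hp
    obtain ⟨-, hpP, l, hl, hp⟩ := hp
    rw [mem_biUnion]
    refine ⟨l, by simpa using hl, ?_⟩
    rw [mem_filter, hS, mem_filter]
    exact ⟨⟨mem_univ _, hpP⟩, hp⟩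
  have h1 := (card_le_card hsub).trans card_biUnion_le
  have hcl : (univ.filter fun l : k => l ≠ 0).card = m := by
    have : (univ.filter fun l : k => l ≠ 0) = univ.erase 0 := by ext l; simp
    rw [this, card_erase_of_mem (mem_univ _), card_univ, hm, Nat.add_sub_cancel]
  have hone : ((univ.filter fun l : k => l ≠ 0).filter fun l => P ∈ cls F l).card ≤ 1 := by
    rw [Finset.card_le_one]
    intro l hl l' hl'
    simp only [mem_filter, mem_univ, true_and] at hl hl'
    by_contra hne
    exact Finset.disjoint_left.mp (cls_disj hco l l' hl.1 hl'.1 hne) hl.2 hl'.2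
  have h2 : (∑ l ∈ univ.filter fun l : k => l ≠ 0,
      (S.filter fun p => p ∈ Bd (F := F) l).card) * (Fintype.card k * m) ≤
      m * (2 * Fintype.card F) := by
    rw [sum_mul]
    refine (sum_le_sum fun l hl' => hl l (by simpa using hl')).trans ?_
    rw [sum_add_distrib, sum_const, smul_eq_mul, hcl, ← sum_filter, sum_const, smul_eq_mul]
    have h3 := Nat.mul_le_mul_right (Fintype.card F * m) hone
    nlinarith
  have h3 : m * (Fintype.card k * (univ.filter fun p => On p P ∧ p ∉ Om k F).card) ≤
      m * (2 * Fintype.card F) := by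
    refine le_trans ?_ h2
    have h4 := Nat.mul_le_mul_right (Fintype.card k * m) h1
    refine le_trans (le_of_eq ?_) h4
    ring
  exact Nat.le_of_mul_le_mul_left h3 hm0

theorem wt_through (w : Pt F) (hw : w ∉ Om k F) :
    (Fintype.card k - 1) * (2 * Fintype.card k - 1) ≤
      ∑ x ∈ Finset.univ.filter fun x : Line F => On w x, wt k x := by
  classical
  have hq : 1 < Fintype.card k := Fintype.one_lt_card
  obtain ⟨m, hm⟩ : ∃ m, Fintype.card k = m + 1 := ⟨Fintype.card k - 1, by omega⟩
  have hcl : (univ.filter fun l : k => l ≠ 0).card = m := by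
    have : (univ.filter fun l : k => l ≠ 0) = univ.erase 0 := by ext l; simp
    rw [this, card_erase_of_mem (mem_univ _), card_univ, hm, Nat.add_sub_cancel]
  -- the sum of the weights
  have h1 : ∑ l ∈ univ.filter (fun l : k => l ≠ 0), (Ks (F := F) l w).card ≤
      ∑ x ∈ Finset.univ.filter fun x : Line F => On w x, wt k x := by
    have h2 : ∑ x ∈ Finset.univ.filter (fun x : Line F => On w x), wt k x =
        (univ.filter fun u : k × F × k => (u.1 ≠ 0 ∧ u.2.1 ≠ 0) ∧
          On w (lin u.1 u.2.1 u.2.2)).card := by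
      unfold wt
      rw [Finset.card_eq_sum_card_fiberwise (f := fun u : k × F × k => lin u.1 u.2.1 u.2.2)
        (t := Finset.univ.filter fun x : Line F => On w x)]
      · refine sum_congr rfl fun x hx => ?_
        rw [filter_filter]
        congr 1
        ext u
        simp only [mem_filter, mem_univ, true_and] at hx ⊢
        constructor
        · rintro ⟨h3, h4, h5⟩
          exact ⟨⟨⟨h3, h4⟩, by rw [h5]; exact hx⟩, h5⟩
        · rintro ⟨⟨⟨h3, h4⟩, _⟩, h5⟩
          exact ⟨h3, h4, h5⟩
      · intro u hu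
        rw [mem_coe, mem_filter] at hu ⊢
        exact ⟨mem_univ _, hu.2.2⟩
    rw [h2]
    have h3 : ∑ l ∈ univ.filter (fun l : k => l ≠ 0), (Ks (F := F) l w).card =
        ((univ.filter fun l : k => l ≠ 0).sigma fun l => Ks (F := F) l w).card := by
      rw [card_sigma]
    rw [h3]
    apply card_le_card_of_injOn (fun a : (_ : k) × (F × k) => ((a.1, a.2) : k × F × k))
    · rintro ⟨l, u⟩ ha
      rw [mem_coe, mem_sigma, mem_filter] at ha
      unfold Ks at ha
      rw [mem_filter] at ha
      rw [mem_coe, mem_filter]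
      exact ⟨mem_univ _, ⟨ha.1.2, ha.2.2.1⟩, ha.2.2.2⟩
    · rintro ⟨l, u⟩ _ ⟨l', u'⟩ _ h
      rw [Prod.mk.injEq] at h
      obtain ⟨h1, h2⟩ := h
      simp only at h1 h2
      subst h1
      subst h2
      rfl
  refine le_trans ?_ h1
  obtain ⟨l₀, hl₀, hw₀⟩ := (mem_Om_compl w).mp hw
  have hmem : l₀ ∈ univ.filter (fun l : k => l ≠ 0) := by simpa using hl₀
  rw [← Finset.add_sum_erase _ _ hmem]
  have h2 : m * ((univ.filter fun l : k => l ≠ 0).erase l₀).card ≤
      ∑ l ∈ (univ.filter fun l : k => l ≠ 0).erase l₀, (Ks (F := F) l w).card := by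
    rw [mul_comm, ← smul_eq_mul]
    apply Finset.card_nsmul_le_sum
    intro l hl
    have hl0 : l ≠ 0 := by
      have := (mem_erase.mp hl).2
      simpa using this
    have := card_le_Ks (F := F) hl0 w
    omega
  rw [card_erase_of_mem hmem, hcl] at h2
  have h3 := Ks_Bd hl₀ hw₀
  rw [hm] at h3 ⊢
  obtain ⟨m', rfl⟩ : ∃ m', m = m' + 1 := ⟨m - 1, by omega⟩
  simp only [Nat.add_sub_cancel] at h2 ⊢
  have h4 : 2 * (m' + 1 + 1) - 1 = 2 * m' + 3 := by omega
  rw [h4]
  nlinarith

end P045.LS
end

section
namespace P045.LS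

section Rig
variable {k F : Type} [Field k] [Fintype k] [DecidableEq k] [Field F] [Fintype F] [DecidableEq F]
  [Algebra k F]

theorem pow5 : (127:ℕ)^5 = 33038369407 := by norm_num

/-- rigidity of `Ω` for `q = 127`, `n` large -/
theorem rigid_127 (hk : Fintype.card k = 127) (hn : 127 ^ 5 ≤ Fintype.card F)
    (hco : Nat.Coprime (Module.finrank k F) 126)
    (L : Finset (Line F)) (hL : L.card ≤ Fintype.card F + 634)
    (hcov : ∀ p ∈ Om k F, ∃ x ∈ L, On p x) : ∀ p, ∃ x ∈ L, On p x := by
  set n := Fintype.card F with hndef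
  have h126 : Fintype.card k - 1 = 126 := by rw [hk]
  have hco' : Nat.Coprime (Module.finrank k F) (Fintype.card k - 1) := by rw [h126]; exact hco
  refine rigid (Om k F) 634 (2 * n / 127) (126 * (127 * n)) (126 * 253) (n / 7) ?_ ?_ ?_ (wt k)
    ?_ ?_ ?_ ?_ ?_ L hL hcov
  · have := pow5
    omega
  · intro x
    have h := card_line_Om_compl (k := k) hco' x
    rw [hk, ← hndef] at h
    rw [Nat.le_div_iff_mul_le (by norm_num)]
    linarith
  · have h := card_Om_compl (k := k) (F := F)
    rw [hk, ← hndef] at h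
    have h7 : n < 7 * (n / 7 + 1) := by omega
    have h3 : 2 * ((n / 7 + 2).choose 2) = (n / 7 + 2) * (n / 7 + 1) := by
      rw [Nat.choose_two_right]
      have : 2 ∣ (n/7+2) * (n/7+2-1) := by
        have := Nat.even_mul_succ_self (n/7+1)
        have h2 : (n/7+2) * (n/7+2-1) = (n/7+1) * (n/7+1+1) := by
          have : n/7+2-1 = n/7+1 := by omega
          rw [this]; ring
        rw [h2]; exact this.two_dvd
      rw [Nat.mul_div_cancel' this]
      rfl
    set a := n / 7 with ha
    have h4 : n ^ 2 < 49 * (a + 1) ^ 2 := by nlinarith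
    nlinarith
  · have h := sum_wt (k := k) (F := F)
    rw [hk, ← hndef] at h
    exact h
  · norm_num
  · intro w hw
    have h := wt_through (k := k) w hw
    rw [hk] at h
    exact h
  · have := pow5
    have h1 : 127 * (2 * n / 127) ≤ 2 * n := Nat.mul_div_le _ _
    have h2 : 7 * (n / 7) ≤ n := Nat.mul_div_le _ _
    omega
  · have := pow5
    have h1 : 127 * (2 * n / 127) ≤ 2 * n := Nat.mul_div_le _ _
    have h2 : 7 * (n / 7) ≤ n := Nat.mul_div_le _ _
    omega

end Rig

section Concrete

instance fact127 : Fact (Nat.Prime 127) := ⟨by norm_num⟩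

/-- index of a pair of classes: `some j` for the classes of `±(j+1)`, `none` for the vertical and
the horizontal lines -/
abbrev II : Type := Option (Fin 63)

/-- colours -/
abbrev AA : Type := (Fin 63 × Fin 10) ⊕ Fin 4

/-- the pair of classes a colour belongs to -/
def clA : AA → II
  | Sum.inl u => some u.1
  | Sum.inr _ => none

/-- size of the labels -/
def sI : II → ℕ
  | some _ => 5
  | none => 2

/-- the parameter of a class -/
def lam (j : Fin 63) (b : Bool) : ZMod 127 :=
  ((if b then 127 - (j.val + 1) else j.val + 1 : ℕ) : ZMod 127)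

theorem lam_inj {j j' : Fin 63} {b b' : Bool} (h : lam j b = lam j' b') : j = j' ∧ b = b' := by
  unfold lam at h
  rw [ZMod.natCast_eq_natCast_iff'] at h
  have hj := j.2
  have hj' := j'.2
  cases b <;> cases b' <;> simp only [if_true, if_false, Bool.false_eq_true] at h <;>
    rw [Nat.mod_eq_of_lt (by omega), Nat.mod_eq_of_lt (by omega)] at h
  · exact ⟨Fin.ext (by omega), rfl⟩
  · omega
  · omega
  · exact ⟨Fin.ext (by omega), rfl⟩

theorem lam_ne (j : Fin 63) (b : Bool) : lam j b ≠ 0 := by
  intro h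
  unfold lam at h
  have hj := j.2
  rw [show (0 : ZMod 127) = ((0:ℕ) : ZMod 127) by simp, ZMod.natCast_eq_natCast_iff'] at h
  cases b <;> simp only [if_true, if_false, Bool.false_eq_true] at h <;>
    rw [Nat.mod_eq_of_lt (by omega), Nat.mod_eq_of_lt (by omega)] at h <;> omega

theorem lam_surj (l : ZMod 127) (hl : l ≠ 0) : ∃ j b, lam j b = l := by
  have h1 : l.val < 127 := ZMod.val_lt l
  have h0 : l.val ≠ 0 := by
    intro h
    exact hl ((ZMod.val_eq_zero l).1 h)
  by_cases h : l.val ≤ 63
  · refine ⟨⟨l.val - 1, by omega⟩, false, ?_⟩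
    unfold lam
    simp only [Bool.false_eq_true, if_false]
    rw [show l.val - 1 + 1 = l.val by omega]
    exact ZMod.natCast_zmod_val l
  · refine ⟨⟨126 - l.val, by omega⟩, true, ?_⟩
    unfold lam
    simp only [if_true]
    rw [show 127 - (126 - l.val + 1) = l.val by omega]
    exact ZMod.natCast_zmod_val l

variable {F : Type} [Field F] [Fintype F] [DecidableEq F] [Algebra (ZMod 127) F]

/-- the classes of split lines -/
def BB (F : Type) [Field F] [Fintype F] [DecidableEq F] [Algebra (ZMod 127) F] :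
    II → Bool → Finset (Line F)
  | some j, b => cls F (lam j b)
  | none, false => Finset.univ.filter fun x => x.1 = none
  | none, true => Finset.univ.filter fun x => x.1 = some 0

theorem card_clA (i : II) : (Finset.univ.filter fun a => clA a = i).card = 2 * sI i := by
  cases i with
  | none =>
    have : (Finset.univ.filter fun a => clA a = none) =
        (Finset.univ : Finset (Fin 4)).image (fun c => (Sum.inr c : AA)) := by
      ext a
      rw [Finset.mem_filter, Finset.mem_image]
      rcases a with u | c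
      · constructor
        · rintro ⟨-, h⟩
          exact absurd h (by simp [clA])
        · rintro ⟨c, -, hc⟩
          exact absurd hc (by simp)
      · constructor
        · intro _
          exact ⟨c, Finset.mem_univ _, rfl⟩
        · intro _
          refine ⟨?_, rfl⟩
          simp
    refine (congrArg Finset.card this).trans ?_
    refine (Finset.card_image_of_injective (Finset.univ : Finset (Fin 4))
      (f := fun c => (Sum.inr c : AA)) Sum.inr_injective).trans ?_
    rfl
  | some j =>
    have : (Finset.univ.filter fun a => clA a = some j) =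
        (Finset.univ : Finset (Fin 10)).image (fun c => (Sum.inl (j, c) : AA)) := by
      ext a
      rw [Finset.mem_filter, Finset.mem_image]
      rcases a with u | c
      · constructor
        · rintro ⟨-, h⟩
          have h' : u.1 = j := Option.some.inj h
          exact ⟨u.2, Finset.mem_univ _, by rw [← h']⟩
        · rintro ⟨c, -, hc⟩
          have h' : (j, c) = u := Sum.inl.inj hc
          refine ⟨?_, by rw [← h']; rfl⟩
          simp
      · constructor
        · rintro ⟨-, h⟩
          exact absurd h (by simp [clA])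
        · rintro ⟨c, -, hc⟩
          exact absurd hc (by simp)
    refine (congrArg Finset.card this).trans ?_
    refine (Finset.card_image_of_injective (Finset.univ : Finset (Fin 10))
      (f := fun c => (Sum.inl (j, c) : AA)) (by
      intro c c' h
      have h' : (j, c) = (j, c') := Sum.inl.inj h
      exact (Prod.ext_iff.1 h').2)).trans ?_
    rfl

theorem BB_disj (hco : Nat.Coprime (Module.finrank (ZMod 127) F) 126) (i : II) (b : Bool)
    (j : II) (c : Bool) (h : (i, b) ≠ (j, c)) : Disjoint (BB F i b) (BB F j c) := by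
  have hco' : Nat.Coprime (Module.finrank (ZMod 127) F) (Fintype.card (ZMod 127) - 1) := by
    rw [ZMod.card]; exact hco
  rcases i with _ | i <;> rcases j with _ | j
  · cases b <;> cases c
    · exact absurd rfl h
    · rw [Finset.disjoint_left]
      intro x hx hx'
      simp only [BB, Finset.mem_filter, Finset.mem_univ, true_and] at hx hx'
      rw [hx] at hx'; exact absurd hx' (by simp)
    · rw [Finset.disjoint_left]
      intro x hx hx'
      simp only [BB, Finset.mem_filter, Finset.mem_univ, true_and] at hx hx'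
      rw [hx] at hx'; exact absurd hx' (by simp)
    · exact absurd rfl h
  · rw [Finset.disjoint_left]
    intro x hx hx'
    obtain ⟨m, hm, hxm⟩ := cls_slope _ (lam_ne j c) x hx'
    cases b <;> simp only [BB, Finset.mem_filter, Finset.mem_univ, true_and] at hx
    · rw [hx] at hxm; exact absurd hxm (by simp)
    · rw [hx] at hxm; exact hm (Option.some.inj hxm).symm
  · rw [Finset.disjoint_left]
    intro x hx' hx
    obtain ⟨m, hm, hxm⟩ := cls_slope _ (lam_ne i b) x hx'
    cases c <;> simp only [BB, Finset.mem_filter, Finset.mem_univ, true_and] at hx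
    · rw [hx] at hxm; exact absurd hxm (by simp)
    · rw [hx] at hxm; exact hm (Option.some.inj hxm).symm
  · apply cls_disj hco' _ _ (lam_ne i b) (lam_ne j c)
    intro hl
    obtain ⟨h1, h2⟩ := lam_inj hl
    exact h (by rw [h1, h2])

theorem BB_cov (i : II) (b : Bool) (p : Pt F) : ∃ x ∈ BB F i b, On p x := by
  rcases i with _ | i
  · cases b
    · exact ⟨(none, p 0), by simp [BB], rfl⟩
    · exact ⟨(some 0, icpt (some 0) p), by simp [BB], rfl⟩
  · exact cls_cov _ (lam_ne i b) p

theorem BB_uniq (p : Pt F) (hp : p ∈ Om (ZMod 127) F) (i : II) (b : Bool) (x : Line F)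
    (hx : x ∈ BB F i b) (y : Line F) (hy : y ∈ BB F i b) (h1 : On p x) (h2 : On p y) : x = y := by
  rcases i with _ | i
  · have hxy : x.1 = y.1 := by
      cases b <;> simp only [BB, Finset.mem_filter, Finset.mem_univ, true_and] at hx hy <;>
        rw [hx, hy]
    refine Prod.ext hxy ?_
    unfold On at h1 h2
    rw [← h1, ← h2, hxy]
  · simp only [Om, Finset.mem_filter, Finset.mem_univ, true_and] at hp
    exact hp _ (lam_ne i b) x hx y hy h1 h2

theorem BB_term (i : II) (b : Bool) (d : Option F) :
    sI i * ((BB F i b).filter fun x => x.1 = d).card ≤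
      ∑ i, ∑ b, sI i * ((BB F i b).filter fun x => x.1 = d).card := by
  refine le_trans ?_ (Finset.single_le_sum
    (f := fun i => ∑ b, sI i * ((BB F i b).filter fun x => x.1 = d).card)
    (fun _ _ => Nat.zero_le _) (Finset.mem_univ i))
  exact Finset.single_le_sum
    (f := fun b => sI i * ((BB F i b).filter fun x => x.1 = d).card)
    (fun _ _ => Nat.zero_le _) (Finset.mem_univ b)

omit [Field F] [Algebra (ZMod 127) F] in
theorem card_dir (d : Option F) :
    (Finset.univ.filter fun x : Line F => x.1 = d).card = Fintype.card F := by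
  have : (Finset.univ.filter fun x : Line F => x.1 = d) =
      (Finset.univ : Finset F).image (fun c => (d, c)) := by
    ext x
    simp only [Finset.mem_filter, Finset.mem_univ, true_and, Finset.mem_image]
    constructor
    · intro h
      exact ⟨x.2, by rw [← h]⟩
    · rintro ⟨c, hc⟩
      rw [← hc]
  rw [this, Finset.card_image_of_injective _ (by
    intro c c' h
    simpa using h)]
  rfl

theorem BB_dir (hn : 127 ^ 5 ≤ Fintype.card F)
    (hco : Nat.Coprime (Module.finrank (ZMod 127) F) 126) (d : Option F) :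
    634 + 1 ≤ ∑ i, ∑ b, sI i * ((BB F i b).filter fun x => x.1 = d).card := by
  have hp5 := pow5
  have hco' : Nat.Coprime (Module.finrank (ZMod 127) F) (Fintype.card (ZMod 127) - 1) := by
    rw [ZMod.card]; exact hco
  rcases d with _ | m
  · refine le_trans ?_ (BB_term none false none)
    have : ((BB F none false).filter fun x => x.1 = none) =
        (Finset.univ.filter fun x : Line F => x.1 = none) := by
      ext x; simp [BB]
    rw [this, card_dir]
    simp only [sI]
    omega
  · by_cases hm : m = 0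
    · subst hm
      refine le_trans ?_ (BB_term none true (some 0))
      have : ((BB F none true).filter fun x => x.1 = some 0) =
          (Finset.univ.filter fun x : Line F => x.1 = some 0) := by
        ext x; simp [BB]
      rw [this, card_dir]
      simp only [sI]
      omega
    · obtain ⟨l, hl, hcard⟩ := cls_dir (k := ZMod 127) hco' m hm
      obtain ⟨j, b, rfl⟩ := lam_surj l hl
      refine le_trans ?_ (BB_term (some j) b (some m))
      rw [ZMod.card] at hcard
      change 635 ≤ 5 * ((cls F (lam j b)).filter fun x => x.1 = some m).card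
      omega

theorem sum_sI : ∑ j, 2 * (2 * sI j).choose (sI j) = 31764 := by
  rw [Fintype.sum_option]
  simp only [sI, Finset.sum_const, Finset.card_univ, Fintype.card_fin, smul_eq_mul]
  decide

theorem BB_big (hn : 127 ^ 5 ≤ Fintype.card F)
    (hco : Nat.Coprime (Module.finrank (ZMod 127) F) 126) (x : Line F) :
    (634 + 1) * ∑ j, 2 * (2 * sI j).choose (sI j) ≤
      ((Om (ZMod 127) F).filter fun p => On p x).card := by
  have hp5 := pow5
  have hco' : Nat.Coprime (Module.finrank (ZMod 127) F) (Fintype.card (ZMod 127) - 1) := by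
    rw [ZMod.card]; exact hco
  rw [sum_sI]
  have h1 := card_line_Om_compl (k := ZMod 127) hco' x
  rw [ZMod.card] at h1
  have h2 : (Finset.univ.filter fun p : Pt F => On p x).card = Fintype.card F :=
    Bruen.card_line x.1 x.2
  have h3 : (Finset.univ.filter fun p : Pt F => On p x).card =
      ((Om (ZMod 127) F).filter fun p => On p x).card +
        (Finset.univ.filter fun p => On p x ∧ p ∉ Om (ZMod 127) F).card := by
    rw [← Finset.card_union_of_disjoint]
    · congr 1
      ext p
      simp only [Finset.mem_filter, Finset.mem_univ, true_and, Finset.mem_union]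
      tauto
    · rw [Finset.disjoint_left]
      intro p hp hp'
      simp only [Finset.mem_filter, Finset.mem_univ, true_and] at hp hp'
      exact hp'.2 hp.1
  omega

theorem Om_nonempty (hn : 127 ^ 5 ≤ Fintype.card F)
    (hco : Nat.Coprime (Module.finrank (ZMod 127) F) 126) : (Om (ZMod 127) F).Nonempty := by
  have h := BB_big hn hco ((none, 0) : Line F)
  rw [sum_sI] at h
  have : 0 < ((Om (ZMod 127) F).filter fun p => On p ((none, 0) : Line F)).card := by omega
  obtain ⟨p, hp⟩ := Finset.card_pos.1 this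
  exact ⟨p, (Finset.mem_filter.1 hp).1⟩

theorem dualCE_of_field (hn : 127 ^ 5 ≤ Fintype.card F)
    (hco : Nat.Coprime (Module.finrank (ZMod 127) F) 126) : DualCE (Fintype.card F + 1 + 634) := by
  refine gadget clA sI ?_ card_clA (BB F) (Om (ZMod 127) F) (Om_nonempty hn hco) (BB_disj hco)
    BB_cov (fun p hp i b x hx y hy => BB_uniq p hp i b x hx y hy) 634 ?_ (BB_dir hn hco)
    (fun i b x _ => BB_big hn hco x) ?_ ?_
  · intro i
    cases i <;> simp [sI]
  · simp [AA]
  · have := pow5
    omega
  · intro L hL hcov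
    exact rigid_127 (k := ZMod 127) (ZMod.card 127) hn hco L hL hcov

end Concrete

/-- the final dual form -/
theorem dualCE_main (h : ℕ) (h5 : 5 ≤ h) (hco : Nat.Coprime h 126) :
    DualCE (127 ^ h + 5 * 127) := by
  classical
  have : Fact (Nat.Prime 127) := ⟨by norm_num⟩
  have : Fintype (GaloisField 127 h) := Fintype.ofFinite _
  have hcard : Fintype.card (GaloisField 127 h) = 127 ^ h := by
    rw [← Nat.card_eq_fintype_card]
    exact GaloisField.card 127 h (by omega)
  have hfin : Module.finrank (ZMod 127) (GaloisField 127 h) = h :=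
    GaloisField.finrank 127 (by omega)
  have key := dualCE_of_field (F := GaloisField 127 h)
    (by rw [hcard]; exact Nat.pow_le_pow_right (by norm_num) h5) (by rw [hfin]; exact hco)
  rw [hcard] at key
  exact key

end P045.LS
end

section
/-!
# P045, LS route: from the dual form to an intersecting `r`-partite hypergraph with `τ = r`
-/

namespace P045.LS

open Finset Vale.Agent.P045

/-- An intersecting `r`-partite hypergraph without cover of size `< r` has `τ = r`, `ν = 1`. -/
theorem tau_nu_of_intersecting {r : ℕ} {V : Type} [DecidableEq V]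
    (H : PartiteHypergraph r V) (hI : H.IsIntersecting)
    (hcov : ∀ C : Finset V, H.IsCover C → r ≤ C.card) :
    H.coveringNumber = r ∧ H.matchingNumber = 1 := by
  classical
  obtain ⟨⟨e, he⟩, hI2⟩ := hI
  have hecard : e.card = r := by
    have h1 : ∀ i : Fin r, ∃ v, v ∈ e ∧ H.part v = i := fun i => (H.exact e he i).exists
    choose g hg using h1
    have himg : e = univ.image g := by
      ext v
      constructor
      · intro hv
        refine mem_image.mpr ⟨H.part v, mem_univ _, ?_⟩
        exact (H.exact e he (H.part v)).unique (hg _) ⟨hv, rfl⟩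
      · intro hv
        obtain ⟨i, _, rfl⟩ := mem_image.mp hv
        exact (hg i).1
    have hinj : Function.Injective g := by
      intro i j hij
      rw [← (hg i).2, ← (hg j).2, hij]
    rw [himg, card_image_of_injective _ hinj, card_univ, Fintype.card_fin]
  constructor
  · apply le_antisymm
    · apply Nat.sInf_le
      refine ⟨e, ?_, hecard⟩
      intro f hf
      obtain ⟨v, hv1, hv2⟩ := hI2 f hf e he
      exact ⟨v, hv1, hv2⟩
    · apply le_csInf
      · refine ⟨e.card, e, ?_, rfl⟩
        intro f hf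
        obtain ⟨v, hv1, hv2⟩ := hI2 f hf e he
        exact ⟨v, hv1, hv2⟩
      · rintro k ⟨C, hC, rfl⟩
        exact hcov C hC
  · have hbd : ∀ k ∈ {k | ∃ M : Finset (Finset V), H.IsMatching M ∧ M.card = k}, k ≤ 1 := by
      rintro k ⟨M, ⟨hM1, hM2⟩, rfl⟩
      rw [card_le_one]
      intro a ha b hb
      by_contra hab
      have hd := hM2 (by exact_mod_cast ha) (by exact_mod_cast hb) hab
      obtain ⟨v, hv1, hv2⟩ := hI2 a (hM1 ha) b (hM1 hb)
      exact (disjoint_left.mp hd) hv1 hv2
    apply le_antisymm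
    · apply csSup_le
      · exact ⟨0, ∅, ⟨empty_subset _, by simp⟩, rfl⟩
      · exact hbd
    · apply le_csSup ⟨1, hbd⟩
      refine ⟨{e}, ⟨by simpa using he, by simp⟩, by simp⟩

/-- The dual form gives an intersecting `r`-partite `r`-uniform hypergraph with `τ = r`, `ν = 1`. -/
theorem exists_hypergraph {r : ℕ} (h : DualCE r) :
    ∃ (V : Type) (_ : Fintype V) (H : PartiteHypergraph r V),
      H.IsIntersecting ∧ H.matchingNumber = 1 ∧ H.coveringNumber = r := by
  classical
  obtain ⟨P, W, Z, iP, iW, iZ, dP, dW, dZ, f, hW, hPr, hint, hcov⟩ := h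
  have e : P ≃ Fin r := Fintype.equivFinOfCardEq hPr
  let edge : W → Finset (Fin r × Z) := fun w => univ.image fun i => (i, f (e.symm i) w)
  have hedge : ∀ w v, v ∈ edge w ↔ v.2 = f (e.symm v.1) w := by
    intro w v
    simp only [edge, mem_image, mem_univ, true_and]
    constructor
    · rintro ⟨i, rfl⟩; rfl
    · intro hv; exact ⟨v.1, by rw [← hv]⟩
  let H : PartiteHypergraph r (Fin r × Z) :=
    { part := Prod.fst
      edges := univ.image edge
      exact := by
        intro E hE i
        obtain ⟨w, _, rfl⟩ := mem_image.mp hE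
        refine ⟨(i, f (e.symm i) w), ⟨(hedge w _).mpr rfl, rfl⟩, ?_⟩
        rintro ⟨j, z⟩ ⟨h1, h2⟩
        have h1' := (hedge w _).mp h1
        simp only at h1' h2
        subst h2
        rw [h1'] }
  have hI : H.IsIntersecting := by
    constructor
    · obtain ⟨w⟩ := hW
      exact ⟨edge w, mem_image_of_mem _ (mem_univ _)⟩
    · intro E hE E' hE'
      obtain ⟨w, _, rfl⟩ := mem_image.mp hE
      obtain ⟨w', _, rfl⟩ := mem_image.mp hE'
      obtain ⟨i, hi⟩ := hint w w'
      refine ⟨(e i, f i w), (hedge _ _).mpr ?_, (hedge _ _).mpr ?_⟩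
      · simp
      · simp [hi]
  have hC : ∀ C : Finset (Fin r × Z), H.IsCover C → r ≤ C.card := by
    intro C hC
    have h1 := hcov (C.image fun v => (e.symm v.1, v.2)) (by
      intro w
      obtain ⟨v, hv, hvC⟩ := hC (edge w) (mem_image_of_mem _ (mem_univ _))
      refine ⟨e.symm v.1, mem_image.mpr ⟨v, hvC, ?_⟩⟩
      rw [(hedge w v).mp hv])
    exact h1.trans card_image_le
  refine ⟨Fin r × Z, inferInstance, H, hI, ?_, ?_⟩
  · exact (tau_nu_of_intersecting H hI hC).2
  · exact (tau_nu_of_intersecting H hI hC).1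

/-- Disjoint copies: an intersecting hypergraph with `τ = r` gives for every `m ≥ 1` an
`r`-partite `r`-uniform hypergraph with `ν = m` and `τ = r m`. -/
theorem exists_copies {r : ℕ} {V : Type} [Fintype V] (H : PartiteHypergraph r V)
    (hI : H.IsIntersecting) (hr : 0 < r) (hτ : H.coveringNumber = r) (m : ℕ) :
    ∃ H' : PartiteHypergraph r (Fin m × V),
      H'.matchingNumber = m ∧ H'.coveringNumber = r * m := by
  classical
  have hcov : ∀ C : Finset V, H.IsCover C → r ≤ C.card := by
    intro C hC
    rw [← hτ]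
    exact Nat.sInf_le ⟨C, hC, rfl⟩
  obtain ⟨C0, hC0, hC0c⟩ : ∃ C : Finset V, H.IsCover C ∧ C.card = r := by
    have h1 : H.coveringNumber ∈ {k | ∃ C : Finset V, H.IsCover C ∧ C.card = k} := by
      apply Nat.sInf_mem
      obtain ⟨⟨e, he⟩, hI2⟩ := hI
      refine ⟨e.card, e, ?_, rfl⟩
      intro f hf
      obtain ⟨v, hv1, hv2⟩ := hI2 f hf e he
      exact ⟨v, hv1, hv2⟩
    rw [hτ] at h1
    exact h1
  obtain ⟨⟨e0, he0⟩, hI2⟩ := hI
  let cp : Fin m → Finset V → Finset (Fin m × V) := fun j e => e.image fun v => (j, v)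
  have hcp : ∀ j e v, v ∈ cp j e ↔ v.1 = j ∧ v.2 ∈ e := by
    intro j e v
    simp only [cp, mem_image]
    constructor
    · rintro ⟨w, hw, rfl⟩; exact ⟨rfl, hw⟩
    · rintro ⟨h1, h2⟩; exact ⟨v.2, h2, by rw [← h1]⟩
  let H' : PartiteHypergraph r (Fin m × V) :=
    { part := fun v => H.part v.2
      edges := (univ ×ˢ H.edges).image fun x => cp x.1 x.2
      exact := by
        intro E hE i
        obtain ⟨⟨j, e⟩, hje, rfl⟩ := mem_image.mp hE
        have he : e ∈ H.edges := (mem_product.mp hje).2
        obtain ⟨v, ⟨hv1, hv2⟩, hv3⟩ := H.exact e he i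
        refine ⟨(j, v), ⟨(hcp _ _ _).mpr ⟨rfl, hv1⟩, hv2⟩, ?_⟩
        rintro ⟨j', v'⟩ ⟨h1, h2⟩
        have h1' := (hcp _ _ _).mp h1
        simp only at h1' h2
        rw [h1'.1, hv3 v' ⟨h1'.2, h2⟩] }
  have hmem : ∀ j e, e ∈ H.edges → cp j e ∈ H'.edges := by
    intro j e he
    exact mem_image.mpr ⟨(j, e), mem_product.mpr ⟨mem_univ _, he⟩, rfl⟩
  have hmem' : ∀ E ∈ H'.edges, ∃ j, ∃ e ∈ H.edges, E = cp j e := by
    intro E hE
    obtain ⟨⟨j, e⟩, hje, rfl⟩ := mem_image.mp hE
    exact ⟨j, e, (mem_product.mp hje).2, rfl⟩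
  have hne : ∀ e ∈ H.edges, e.Nonempty := by
    intro e he
    obtain ⟨v, ⟨hv1, _⟩, _⟩ := H.exact e he ⟨0, hr⟩
    exact ⟨v, hv1⟩
  refine ⟨H', ?_, ?_⟩
  · have hbd : ∀ k ∈ {k | ∃ M : Finset (Finset (Fin m × V)), H'.IsMatching M ∧ M.card = k},
        k ≤ m := by
      rintro k ⟨M, ⟨hM1, hM2⟩, rfl⟩
      have h1 : ∀ E ∈ M, ∃ j, ∃ e ∈ H.edges, E = cp j e := fun E hE => hmem' E (hM1 hE)
      rcases M.eq_empty_or_nonempty with rfl | ⟨E0, hE0⟩
      · simp
      have : Nonempty (Fin m) := ⟨(h1 E0 hE0).choose⟩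
      choose! j e he hE using h1
      have h2 : Set.InjOn j (M : Set (Finset (Fin m × V))) := by
        intro A hA B hB hAB
        by_contra hne'
        have hd := hM2 hA hB hne'
        obtain ⟨v, hv1, hv2⟩ := hI2 (e A) (he A hA) (e B) (he B hB)
        have h5 : (j A, v) ∈ cp (j A) (e A) := (hcp _ _ _).mpr ⟨rfl, hv1⟩
        have h6 : (j A, v) ∈ cp (j B) (e B) := (hcp _ _ _).mpr ⟨hAB, hv2⟩
        rw [← hE A hA] at h5
        rw [← hE B hB] at h6
        exact (disjoint_left.mp hd) h5 h6
      calc M.card ≤ (univ : Finset (Fin m)).card :=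
            card_le_card_of_injOn j (fun _ _ => mem_univ _) h2
        _ = m := by simp
    apply le_antisymm
    · apply csSup_le
      · exact ⟨0, ∅, ⟨empty_subset _, by simp⟩, rfl⟩
      · exact hbd
    · apply le_csSup ⟨m, hbd⟩
      refine ⟨univ.image fun j => cp j e0, ⟨?_, ?_⟩, ?_⟩
      · intro E hE
        obtain ⟨j, _, rfl⟩ := mem_image.mp hE
        exact hmem j e0 he0
      · intro A hA B hB hAB
        obtain ⟨j, _, rfl⟩ := mem_image.mp (mem_coe.mp hA)
        obtain ⟨j', _, rfl⟩ := mem_image.mp (mem_coe.mp hB)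
        show Disjoint (cp j e0) (cp j' e0)
        rw [disjoint_left]
        intro v hv hv'
        apply hAB
        have h3 := ((hcp _ _ _).mp hv).1
        have h4 := ((hcp _ _ _).mp hv').1
        show cp j e0 = cp j' e0
        rw [← h3, ← h4]
      · rw [card_image_of_injective]
        · simp
        · intro j j' hjj
          obtain ⟨v, hv⟩ := hne e0 he0
          have h3 : (j, v) ∈ cp j e0 := (hcp _ _ _).mpr ⟨rfl, hv⟩
          have hjj' : cp j e0 = cp j' e0 := hjj
          rw [hjj'] at h3
          exact ((hcp _ _ _).mp h3).1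
  · apply le_antisymm
    · apply Nat.sInf_le
      refine ⟨univ ×ˢ C0, ?_, ?_⟩
      · intro E hE
        obtain ⟨j, e, he, rfl⟩ := hmem' E hE
        obtain ⟨v, hv1, hv2⟩ := hC0 e he
        exact ⟨(j, v), (hcp _ _ _).mpr ⟨rfl, hv1⟩, mem_product.mpr ⟨mem_univ _, hv2⟩⟩
      · rw [card_product, hC0c, card_univ, Fintype.card_fin, mul_comm]
    · apply le_csInf
      · refine ⟨_, univ ×ˢ C0, ?_, rfl⟩
        intro E hE
        obtain ⟨j, e, he, rfl⟩ := hmem' E hE
        obtain ⟨v, hv1, hv2⟩ := hC0 e he
        exact ⟨(j, v), (hcp _ _ _).mpr ⟨rfl, hv1⟩, mem_product.mpr ⟨mem_univ _, hv2⟩⟩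
      · rintro k ⟨C, hC, rfl⟩
        have h1 : ∀ j : Fin m, r ≤ (C.filter fun v => v.1 = j).card := by
          intro j
          have h2 := hcov ((C.filter fun v => v.1 = j).image Prod.snd) (by
            intro e he
            obtain ⟨v, hv1, hv2⟩ := hC (cp j e) (hmem j e he)
            obtain ⟨h3, h4⟩ := (hcp _ _ _).mp hv1
            exact ⟨v.2, h4, mem_image.mpr ⟨v, mem_filter.mpr ⟨hv2, h3⟩, rfl⟩⟩)
          exact h2.trans card_image_le
        have h2 : C.card = ∑ j : Fin m, (C.filter fun v => v.1 = j).card :=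
          card_eq_sum_card_fiberwise (fun v _ => mem_coe.mpr (mem_univ _))
        rw [h2]
        calc r * m = ∑ _j : Fin m, r := by simp [mul_comm]
          _ ≤ _ := sum_le_sum fun j _ => h1 j

end P045.LS
end

section
/-!
# P045, LS route: the final statements, from the dual form for `r = 127^h + 635`
-/

namespace P045.LS

open Vale.Agent.P045

theorem final_of_dual
    (hd : ∀ h : ℕ, 5 ≤ h → Nat.Coprime h 126 → DualCE (127 ^ h + 5 * 127)) :
    (∀ h : ℕ, 5 ≤ h → Nat.Coprime h 126 →
      ∃ (V : Type) (_ : Fintype V) (H : PartiteHypergraph (127 ^ h + 635) V),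
        H.IsIntersecting ∧ H.matchingNumber = 1 ∧ H.coveringNumber = 127 ^ h + 635) ∧
    (∀ h : ℕ, 5 ≤ h → Nat.Coprime h 126 → ∀ m : ℕ,
      ∃ (V : Type) (_ : Fintype V) (H : PartiteHypergraph (127 ^ h + 635) V),
        H.matchingNumber = m ∧ H.coveringNumber = (127 ^ h + 635) * m) ∧
    (∀ R : ℕ, ∃ r : ℕ, R ≤ r ∧ ∃ (V : Type) (_ : Fintype V) (H : PartiteHypergraph r V),
        H.IsIntersecting ∧ H.matchingNumber = 1 ∧ H.coveringNumber = r) ∧
    ¬ (∀ r : ℕ, 2 ≤ r → ∀ (V : Type) (_ : Fintype V) (H : PartiteHypergraph r V),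
        H.IsIntersecting → H.coveringNumber ≤ r - 1) ∧
    ¬ (∀ r : ℕ, 2 ≤ r → ∀ (V : Type) (_ : Fintype V) (H : PartiteHypergraph r V),
        H.coveringNumber ≤ (r - 1) * H.matchingNumber) := by
  have h1 : ∀ h : ℕ, 5 ≤ h → Nat.Coprime h 126 →
      ∃ (V : Type) (_ : Fintype V) (H : PartiteHypergraph (127 ^ h + 635) V),
        H.IsIntersecting ∧ H.matchingNumber = 1 ∧ H.coveringNumber = 127 ^ h + 635 :=
    fun h h5 hc => exists_hypergraph (hd h h5 hc)
  have hc5 : Nat.Coprime 5 126 := by norm_num
  refine ⟨h1, ?_, ?_, ?_, ?_⟩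
  · intro h h5 hc m
    obtain ⟨V, iV, H, hI, _, hτ⟩ := h1 h h5 hc
    obtain ⟨H', h2, h3⟩ := exists_copies H hI (by positivity) hτ m
    exact ⟨Fin m × V, inferInstance, H', h2, h3⟩
  · intro R
    have h2 : ∃ h, 5 ≤ h ∧ Nat.Coprime h 126 ∧ R ≤ 127 ^ h := by
      refine ⟨126 * (R + 1) + 5, by omega, ?_, ?_⟩
      · rw [Nat.coprime_mul_left_add_left]
        exact hc5
      · calc R ≤ 127 ^ R := (Nat.lt_pow_self (by norm_num)).le
          _ ≤ _ := Nat.pow_le_pow_right (by norm_num) (by omega)
    obtain ⟨h, h5, hc, hR⟩ := h2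
    exact ⟨127 ^ h + 635, by omega, h1 h h5 hc⟩
  · intro hcon
    obtain ⟨V, iV, H, hI, _, hτ⟩ := h1 5 le_rfl hc5
    have := hcon _ (by norm_num) V iV H hI
    rw [hτ] at this
    norm_num at this
  · intro hcon
    obtain ⟨V, iV, H, hI, hν, hτ⟩ := h1 5 le_rfl hc5
    have := hcon _ (by norm_num) V iV H
    rw [hτ, hν] at this
    norm_num at this

end P045.LS
end
end
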